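import Crest.Agent.N207.Lg.Fun2

/-!
# Row 207 (helper54): multilinearity, homogeneity (weight 2) and closure properties
-/

set_option autoImplicit false
set_option linter.unusedSectionVars false

open Finset

noncomputable section

namespace Crest.Agent.N207.Lg

variable {ι 𝕜 : Type*} [Fintype ι] [Field 𝕜]

section Lin

variable (t : 𝕜) (g g' H H' k k' : M2 ι 𝕜) (p p' T T' β : M3 ι 𝕜) (Q Q' : M4 ι 𝕜) (u u' v : ι → 𝕜)

theorem low_sub : low (p - p') = low p - low p' := by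
  funext m i j; simp only [low, Pi.sub_apply]; ring
theorem low_smul : low (t • p) = t • low p := by
  funext m i j; simp only [low, Pi.smul_apply, smul_eq_mul]; ring
theorem chr_sub : chr H (p - p') = chr H p - chr H p' := by
  funext m i j; simp only [chr, low_sub, Pi.sub_apply, mul_sub, sum_sub_distrib]
theorem chr_smul : chr H (t • p) = t • chr H p := by
  funext m i j
  simp only [chr, low_smul, Pi.smul_apply, smul_eq_mul, mul_sum]
  exact sum_congr rfl fun _ _ => by ring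
theorem add_chr : chr (H + H') p = chr H p + chr H' p := by
  funext m i j; simp only [chr, Pi.add_apply, add_mul, sum_add_distrib]
theorem sub_chr : chr (H - H') p = chr H p - chr H' p := by
  funext m i j; simp only [chr, Pi.sub_apply, sub_mul, sum_sub_distrib]
theorem smul_chr : chr (t • H) p = t • chr H p := by
  funext m i j; simp only [chr, Pi.smul_apply, smul_eq_mul, mul_sum, mul_assoc]
theorem chr_zero : chr H (0 : M3 ι 𝕜) = 0 := by funext m i j; simp [chr, low]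
theorem up_sub : up H (k - k') = up H k - up H k' := by
  funext i j; simp only [up, Pi.sub_apply, mul_sub, sub_mul, sum_sub_distrib]
theorem up_smul : up H (t • k) = t • up H k := by
  funext i j
  simp only [up, Pi.smul_apply, smul_eq_mul, mul_sum]
  exact sum_congr rfl fun _ _ => sum_congr rfl fun _ _ => by ring
theorem smul_up : up (t • H) k = (t * t) • up H k := by
  funext i j
  simp only [up, Pi.smul_apply, smul_eq_mul, mul_sum]
  exact sum_congr rfl fun _ _ => sum_congr rfl fun _ _ => by ring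
theorem tr2_zero : tr2 H (0 : M2 ι 𝕜) = 0 := by simp [tr2]
theorem gv_sub' : gv H (T - T') = gv H T - gv H T' := by
  funext j; simp only [gv, uT, vT, tr2, Pi.sub_apply, mul_sub, sum_sub_distrib]; ring
theorem gv_smul' : gv H (t • T) = t • gv H T := by
  funext j
  have e : ∀ a b : 𝕜, a * (t * b) = t * (a * b) := fun a b => by ring
  simp only [gv, uT, vT, tr2, Pi.smul_apply, smul_eq_mul, e, ← mul_sum]; ring
theorem smul_gv : gv (t • H) T = t • gv H T := funext fun j => gv_smul t H T j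
theorem sub_gv : gv (H - H') T = gv H T - gv H' T := funext fun j => gv_sub H H' T j
theorem gv_zero : gv H (0 : M3 ι 𝕜) = 0 := by funext j; simp [gv, uT, vT, tr2]
theorem cc_add_left : cc (p + p') T = cc p T + cc p' T := by
  funext i j; simp only [cc, Pi.add_apply, add_mul, sum_add_distrib]; ring
theorem cc_add_right : cc T (p + p') = cc T p + cc T p' := by
  funext i j; simp only [cc, Pi.add_apply, mul_add, sum_add_distrib]; ring
theorem cc_smul_left : cc (t • p) T = t • cc p T := by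
  funext i j; simp only [cc, Pi.smul_apply, smul_eq_mul, mul_assoc, ← mul_sum]; ring
theorem cc_smul_right : cc T (t • p) = t • cc T p := by
  funext i j
  have e : ∀ a b : 𝕜, a * (t * b) = t * (a * b) := fun a b => by ring
  simp only [cc, Pi.smul_apply, smul_eq_mul, e, ← mul_sum]; ring
theorem ip1_smul_left : ip1 H (t • u) v = t * ip1 H u v := by
  simp only [ip1, Pi.smul_apply, smul_eq_mul, mul_sum]
  exact sum_congr rfl fun _ _ => sum_congr rfl fun _ _ => by ring
theorem ip1_smul_right : ip1 H v (t • u) = t * ip1 H v u := by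
  simp only [ip1, Pi.smul_apply, smul_eq_mul, mul_sum]
  exact sum_congr rfl fun _ _ => sum_congr rfl fun _ _ => by ring
theorem ip1_add_left : ip1 H (u + u') v = ip1 H u v + ip1 H u' v := by
  simp only [ip1, Pi.add_apply, add_mul, mul_add, sum_add_distrib]
theorem ip1_add_right : ip1 H v (u + u') = ip1 H v u + ip1 H v u' := by
  simp only [ip1, Pi.add_apply, mul_add, sum_add_distrib]
theorem ip1_zero_left : ip1 H 0 v = 0 := by simp [ip1]
theorem bar_add : bar (g + g') (p + p') β = bar g p β + bar g' p' β := by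
  funext c a b; simp only [bar, Pi.add_apply, mul_add, sum_add_distrib]; ring
theorem bar_smul : bar (t • g) (t • p) β = t • bar g p β := by
  funext c a b
  have e : ∀ a b : 𝕜, a * (t * b) = t * (a * b) := fun a b => by ring
  simp only [bar, Pi.smul_apply, smul_eq_mul, e, ← mul_sum]; ring
theorem bar_zero : bar g p 0 = p := by funext c a b; simp [bar]
theorem bar3_zero : bar3 T Q 0 = Q := by funext c d a b; simp [bar3]
theorem lapJ_add : lapJ H (Q + Q') = lapJ H Q + lapJ H Q' := by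
  funext i j; simp only [lapJ, Pi.add_apply, mul_add, sum_add_distrib]
theorem lapJ_sub : lapJ H (Q - Q') = lapJ H Q - lapJ H Q' := by
  funext i j; simp only [lapJ, Pi.sub_apply, mul_sub, sum_sub_distrib]
theorem sub_lapJ : lapJ (H - H') Q = lapJ H Q - lapJ H' Q := by
  funext i j; simp only [lapJ, Pi.sub_apply, sub_mul, sum_sub_distrib]
theorem lapJ_smul : lapJ H (t • Q) = t • lapJ H Q := by
  funext i j
  simp only [lapJ, Pi.smul_apply, smul_eq_mul, mul_sum]
  exact sum_congr rfl fun _ _ => sum_congr rfl fun _ _ => by ring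
theorem vG_smul (s : 𝕜) : vG s H (t • k) = t • vG s H k := by
  funext i j; simp only [vG, tr2_smul, up_smul, Pi.smul_apply, smul_eq_mul]; ring

theorem tr2_up : tr2 (up H k) k' = ∑ a, ∑ b, ∑ c, ∑ d, H a c * H d b * (k c d * k' a b) := by
  simp only [tr2, up, sum_mul]
  exact sum_congr rfl fun _ _ => sum_congr rfl fun _ _ => sum_congr rfl fun _ _ =>
    sum_congr rfl fun _ _ => by ring

variable {H} in
theorem tr2_up_comm (hH : Sy2 H) : tr2 (up H k) k' = tr2 (up H k') k := by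
  rw [tr2_up, tr2_up]
  perm4 a b c d => (c, d, a, b); rw [hH c a, hH b d]; ring


end Lin

section Hom

variable (t s : 𝕜) (g H k ρ : M2 ι 𝕜) (p T τ β : M3 ι 𝕜) (q TT dβ : M4 ι 𝕜)

theorem bar_hom : bar g (t • p) (t • β) = t • bar g p β := by
  funext c a b; simp only [bar, Pi.smul_apply, smul_eq_mul, mul_assoc, ← mul_sum]; ring
theorem dchr_hom : dchr H (t • T) (t • k) (t ^ 2 • τ) = t ^ 2 • dchr H T k τ := by
  funext a i j
  simp only [dchr, chr_smul, up_smul, smul_chr, Pi.smul_apply, smul_eq_mul]; ring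
theorem dgv_hom : dgv H (t • T) (t • k) (t ^ 2 • τ) = t ^ 2 • dgv H T k τ := by
  funext j
  simp only [dgv, gv_smul', up_smul, smul_gv, Pi.smul_apply, smul_eq_mul]; ring
theorem ricC_hom : ricC (t • β) (t ^ 2 • dβ) = t ^ 2 • ricC β dβ := by
  funext i j
  simp only [ricC, cc_smul_left, cc_smul_right, Pi.smul_apply, smul_eq_mul, ← mul_sum]; ring
theorem dG2_hom : dG2 H (t • p) (t ^ 2 • q) = t ^ 2 • dG2 H p q :=
  funext fun c => dchr_hom t H (p c) p (q c)
theorem ricJ_hom : ricJ H (t • T) (t ^ 2 • TT) = t ^ 2 • ricJ H T TT := by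
  rw [ricJ, chr_smul]
  exact (congrArg _ (dG2_hom t H T TT)).trans (ricC_hom t _ _)
theorem redJ_hom : redJ H (t • T) (t ^ 2 • TT) = t ^ 2 • redJ H T TT := by
  funext i j
  simp only [redJ, ricJ_hom, dgv_hom, gv_smul', Pi.smul_apply, smul_eq_mul]; ring
theorem qd_hom : qd H (t • T) = t ^ 2 • qd H T := by
  rw [qd, qd, ← redJ_hom, smul_zero]
theorem qd_zero : qd H (0 : M3 ι 𝕜) = 0 := by
  have := qd_hom 0 H (0 : M3 ι 𝕜)
  rwa [zero_smul, zero_pow two_ne_zero, zero_smul] at this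
theorem bar3_hom : bar3 (t • T) (t ^ 2 • TT) (t • β) = t ^ 2 • bar3 T TT β := by
  funext c d a b
  have e : ∀ a b : 𝕜, t * a * (t * b) = t ^ 2 * (a * b) := fun a b => by ring
  simp only [bar3, Pi.smul_apply, smul_eq_mul, e, ← mul_sum]; ring
theorem dbar_hom : dbar g (t • p) (t ^ 2 • q) (t • β) (t ^ 2 • dβ) = t ^ 2 • dbar g p q β dβ := by
  funext c d a b
  have e : ∀ a b c d : 𝕜, t ^ 2 * c * d + t * a * (t * b) = t ^ 2 * (c * d + a * b) :=
    fun a b c d => by ring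
  simp only [dbar, Pi.smul_apply, smul_eq_mul, e, ← mul_sum]; ring
theorem rie_hom : rie (t • β) (t ^ 2 • dβ) = t ^ 2 • rie β dβ := by
  funext l k i j
  have e : ∀ a b c d : 𝕜, t * c * (t * d) - t * a * (t * b) = t ^ 2 * (c * d - a * b) :=
    fun a b c d => by ring
  simp only [rie, Pi.smul_apply, smul_eq_mul, e, ← mul_sum]; ring
theorem ell_hom : ell H (t • T) = t ^ 2 * ell H T := by
  simp only [ell, chr_smul, cc_smul_left, cc_smul_right, tr2_smul]; ring
theorem lag_hom : lag s H (t • T) (t ^ 2 • ρ) = t ^ 2 * lag s H T ρ := by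
  simp only [lag, ell_hom, tr2_smul]; ring
theorem gau_hom : gau s H (t • T) = t ^ 2 * gau s H T := by
  simp only [gau, gv_smul', ip1_smul_left, ip1_smul_right]; ring
theorem fgf_hom : fgf s H (t • T) (t ^ 2 • ρ) = t ^ 2 * fgf s H T ρ := by
  simp only [fgf, lag_hom, gau_hom]; ring
theorem fgfR_hom : fgfR s g H (t • p) (t • β) (t ^ 2 • dβ) = t ^ 2 * fgfR s g H p β dβ := by
  rw [fgfR, fgfR, bar_hom, ricC_hom, fgf_hom]

end Hom

/-! ### closure: any class of functions closed under constants, sums and products -/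

/-- a class of scalar functions closed under the ring operations -/
structure Cl {X : Type*} (P : (X → 𝕜) → Prop) : Prop where
  const : ∀ c, P fun _ => c
  add : ∀ {f g}, P f → P g → P fun x => f x + g x
  mul : ∀ {f g}, P f → P g → P fun x => f x * g x

namespace Cl

variable {X : Type*} {P : (X → 𝕜) → Prop} (h : Cl P)
include h

theorem neg {f : X → 𝕜} (hf : P f) : P fun x => -f x := by
  simpa using h.mul (h.const (-1)) hf

theorem sub {f g : X → 𝕜} (hf : P f) (hg : P g) : P fun x => f x - g x := by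
  simpa only [sub_eq_add_neg] using h.add hf (h.neg hg)

theorem sum {κ : Type*} (S : Finset κ) {f : κ → X → 𝕜} (hf : ∀ i, P (f i)) :
    P fun x => ∑ i ∈ S, f i x := by
  classical
  induction S using Finset.induction_on with
  | empty => simpa using h.const 0
  | insert a S ha ih => simpa only [sum_insert ha] using h.add (hf a) ih

end Cl

/-- entrywise membership -/
def P1 {X : Type*} (P : (X → 𝕜) → Prop) (u : X → ι → 𝕜) : Prop := ∀ a, P fun x => u x a
/-- entrywise membership -/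
def P2 {X : Type*} (P : (X → 𝕜) → Prop) (u : X → M2 ι 𝕜) : Prop := ∀ a b, P fun x => u x a b
/-- entrywise membership -/
def P3 {X : Type*} (P : (X → 𝕜) → Prop) (u : X → M3 ι 𝕜) : Prop := ∀ a b c, P fun x => u x a b c
/-- entrywise membership -/
def P4 {X : Type*} (P : (X → 𝕜) → Prop) (u : X → M4 ι 𝕜) : Prop :=
  ∀ a b c d, P fun x => u x a b c d

namespace Cl

variable {X : Type*} {P : (X → 𝕜) → Prop} (h : Cl P) {s : X → 𝕜} {u v : X → ι → 𝕜}
  {g H k ρ : X → M2 ι 𝕜} {T τ β : X → M3 ι 𝕜} {Q R : X → M4 ι 𝕜}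
include h

theorem low (hT : P3 P T) :
    P3 P fun x => Lg.low (T x) := fun _ _ _ =>
  h.mul (h.const _) (h.sub (h.add (hT _ _ _) (hT _ _ _)) (hT _ _ _))

theorem chr (hH : P2 P H) (hT : P3 P T) :
    P3 P fun x => Lg.chr (H x) (T x) := fun _ _ _ =>
  h.sum _ fun _ => h.mul (hH _ _) (h.low hT _ _ _)

theorem bar (hg : P2 P g) (hT : P3 P T) (hβ : P3 P β) :
    P3 P fun x => Lg.bar (g x) (T x) (β x) := fun _ _ _ =>
  h.sub (h.sub (hT _ _ _) (h.sum _ fun _ => h.mul (hβ _ _ _) (hg _ _)))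
    (h.sum _ fun _ => h.mul (hβ _ _ _) (hg _ _))

theorem tr2 (hH : P2 P H) (hk : P2 P k) :
    P fun x => Lg.tr2 (H x) (k x) := 
  h.sum _ fun _ => h.sum _ fun _ => h.mul (hH _ _) (hk _ _)

theorem up (hH : P2 P H) (hk : P2 P k) :
    P2 P fun x => Lg.up (H x) (k x) := fun _ _ =>
  h.sum _ fun _ => h.sum _ fun _ => h.mul (h.mul (hH _ _) (hk _ _)) (hH _ _)

theorem uT (hH : P2 P H) (hT : P3 P T) :
    P1 P fun x => Lg.uT (H x) (T x) := fun _ =>
  h.sum _ fun _ => h.sum _ fun _ => h.mul (hH _ _) (hT _ _ _)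

theorem vT (hH : P2 P H) (hT : P3 P T) :
    P1 P fun x => Lg.vT (H x) (T x) := fun _ =>
  h.tr2 hH (hT _)

theorem gv (hH : P2 P H) (hT : P3 P T) :
    P1 P fun x => Lg.gv (H x) (T x) := fun _ =>
  h.sub (h.uT hH hT _) (h.mul (h.const _) (h.vT hH hT _))

theorem cc (hT : P3 P T) (hτ : P3 P τ) :
    P2 P fun x => Lg.cc (T x) (τ x) := fun _ _ =>
  h.sub (h.sum _ fun _ => h.sum _ fun _ => h.mul (hT _ _ _) (hτ _ _ _))
    (h.sum _ fun _ => h.sum _ fun _ => h.mul (hT _ _ _) (hτ _ _ _))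

theorem ell (hH : P2 P H) (hT : P3 P T) :
    P fun x => Lg.ell (H x) (T x) := 
  h.tr2 hH (h.cc (h.chr hH hT) (h.chr hH hT))

theorem lag (hs : P s) (hH : P2 P H) (hT : P3 P T) (hρ : P2 P ρ) :
    P fun x => Lg.lag (s x) (H x) (T x) (ρ x) := 
  h.mul hs (h.add (h.tr2 hH hρ) (h.ell hH hT))

theorem ip1 (hH : P2 P H) (hu : P1 P u) (hv : P1 P v) :
    P fun x => Lg.ip1 (H x) (u x) (v x) := 
  h.sum _ fun _ => h.sum _ fun _ => h.mul (hH _ _) (h.mul (hu _) (hv _))

theorem gau (hs : P s) (hH : P2 P H) (hT : P3 P T) :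
    P fun x => Lg.gau (s x) (H x) (T x) := 
  h.mul (h.mul (h.const _) hs) (h.ip1 hH (h.gv hH hT) (h.gv hH hT))

theorem fgf (hs : P s) (hH : P2 P H) (hT : P3 P T) (hρ : P2 P ρ) :
    P fun x => Lg.fgf (s x) (H x) (T x) (ρ x) := 
  h.sub (h.lag hs hH hT hρ) (h.gau hs hH hT)

theorem vG (hs : P s) (hH : P2 P H) (hk : P2 P k) :
    P2 P fun x => Lg.vG (s x) (H x) (k x) := fun _ _ =>
  h.mul hs (h.sub (h.mul (h.mul (h.const _) (h.tr2 hH hk)) (hH _ _)) (h.up hH hk _ _))

theorem fl (hH : P2 P H) (hT : P3 P T) :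
    P1 P fun x => Lg.fl (H x) (T x) := fun _ =>
  h.sub (h.sum _ fun _ => h.sum _ fun _ => h.mul (hH _ _) (hT _ _ _))
    (h.sum _ fun _ => h.sum _ fun _ => h.mul (hH _ _) (hT _ _ _))

theorem flux (hs : P s) (hH : P2 P H) (hT : P3 P T) :
    P1 P fun x => Lg.flux (s x) (H x) (T x) := fun _ =>
  h.mul hs (h.fl hH (h.chr hH hT) _)

theorem wL (hs : P s) (hH : P2 P H) (hT : P3 P T) (hk : P2 P k) :
    P1 P fun x => Lg.wL (s x) (H x) (T x) (k x) := fun _ =>
  h.neg (h.fl (h.vG hs hH hk) (h.chr hH hT) _)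

theorem wF (hs : P s) (hH : P2 P H) (hT : P3 P T) (hk : P2 P k) :
    P1 P fun x => Lg.wF (s x) (H x) (T x) (k x) := fun _ =>
  h.add (h.wL hs hH hT hk _) (h.sum _ fun _ => h.mul (h.vG hs hH hk _ _) (h.gv hH hT _))

theorem dchr (hH : P2 P H) (hT : P3 P T) (hk : P2 P k) (hτ : P3 P τ) :
    P3 P fun x => Lg.dchr (H x) (T x) (k x) (τ x) := fun _ _ _ =>
  h.sub (h.chr hH hτ _ _ _) (h.chr (h.up hH hk) hT _ _ _)

theorem dgv (hH : P2 P H) (hT : P3 P T) (hk : P2 P k) (hτ : P3 P τ) :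
    P1 P fun x => Lg.dgv (H x) (T x) (k x) (τ x) := fun _ =>
  h.sub (h.gv hH hτ _) (h.gv (h.up hH hk) hT _)

theorem ricC (hT : P3 P T) (hQ : P4 P Q) :
    P2 P fun x => Lg.ricC (T x) (Q x) := fun _ _ =>
  h.sub (h.sub (h.sum _ fun _ => hQ _ _ _ _) (h.sum _ fun _ => hQ _ _ _ _)) (h.cc hT hT _ _)

theorem dG2 (hH : P2 P H) (hT : P3 P T) (hQ : P4 P Q) :
    P4 P fun x => Lg.dG2 (H x) (T x) (Q x) := fun _ _ _ _ =>
  h.dchr hH hT (hT _) (hQ _) _ _ _

theorem ricJ (hH : P2 P H) (hT : P3 P T) (hQ : P4 P Q) :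
    P2 P fun x => Lg.ricJ (H x) (T x) (Q x) := fun _ _ =>
  h.ricC (h.chr hH hT) (h.dG2 hH hT hQ) _ _

theorem redJ (hH : P2 P H) (hT : P3 P T) (hQ : P4 P Q) :
    P2 P fun x => Lg.redJ (H x) (T x) (Q x) := fun _ _ =>
  h.add (h.sub (h.ricJ hH hT hQ _ _) (h.mul (h.const _) (h.add (h.dgv hH hT (hT _) (hQ _) _)
    (h.dgv hH hT (hT _) (hQ _) _)))) (h.mul (h.const _) (h.mul (h.gv hH hT _) (h.gv hH hT _)))

theorem qd (hH : P2 P H) (hT : P3 P T) :
    P2 P fun x => Lg.qd (H x) (T x) := fun _ _ =>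
  h.redJ (Q := fun _ => 0) hH hT (fun _ _ _ _ => h.const 0) _ _

theorem lapJ (hH : P2 P H) (hQ : P4 P Q) :
    P2 P fun x => Lg.lapJ (H x) (Q x) := fun _ _ =>
  h.sum _ fun _ => h.sum _ fun _ => h.mul (hH _ _) (hQ _ _ _ _)

theorem bar3 (hT : P3 P T) (hQ : P4 P Q) (hβ : P3 P β) :
    P4 P fun x => Lg.bar3 (T x) (Q x) (β x) := fun _ _ _ _ =>
  h.sub (h.sub (h.sub (hQ _ _ _ _) (h.sum _ fun _ => h.mul (hβ _ _ _) (hT _ _ _)))
    (h.sum _ fun _ => h.mul (hβ _ _ _) (hT _ _ _))) (h.sum _ fun _ => h.mul (hβ _ _ _) (hT _ _ _))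

theorem rie (hβ : P3 P β) (hQ : P4 P Q) :
    P4 P fun x => Lg.rie (β x) (Q x) := fun _ _ _ _ =>
  h.add (h.sub (hQ _ _ _ _) (hQ _ _ _ _)) (h.sum _ fun _ =>
    h.sub (h.mul (hβ _ _ _) (hβ _ _ _)) (h.mul (hβ _ _ _) (hβ _ _ _)))

theorem dbar (hg : P2 P g) (hT : P3 P T) (hQ : P4 P Q) (hβ : P3 P β) (hR : P4 P R) :
    P4 P fun x => Lg.dbar (g x) (T x) (Q x) (β x) (R x) := fun _ _ _ _ =>
  h.sub (h.sub (hQ _ _ _ _) (h.sum _ fun _ => h.add (h.mul (hR _ _ _ _) (hg _ _))
    (h.mul (hβ _ _ _) (hT _ _ _)))) (h.sum _ fun _ => h.add (h.mul (hR _ _ _ _) (hg _ _))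
    (h.mul (hβ _ _ _) (hT _ _ _)))

theorem cvJ (hg : P2 P g) (hH : P2 P H) (hR : P4 P R) :
    P2 P fun x => Lg.cvJ (g x) (H x) (R x) := fun _ _ =>
  h.mul (h.const _) (h.sum _ fun _ => h.sum _ fun _ => h.sum _ fun _ => h.mul (hH _ _)
    (h.add (h.mul (hR _ _ _ _) (hg _ _)) (h.mul (hR _ _ _ _) (hg _ _))))

theorem redR (hg : P2 P g) (hH : P2 P H) (hT : P3 P T) (hQ : P4 P Q) (hβ : P3 P β) (hR : P4 P R) :
    P2 P fun x => Lg.redR (g x) (H x) (T x) (Q x) (β x) (R x) := fun _ _ =>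
  h.add (h.ricC hβ hR _ _) (h.redJ hH (h.bar hg hT hβ)
    (h.bar3 (h.bar hg hT hβ) (h.dbar hg hT hQ hβ hR) hβ) _ _)

theorem fgfR (hs : P s) (hg : P2 P g) (hH : P2 P H) (hT : P3 P T) (hβ : P3 P β) (hR : P4 P R) :
    P fun x => Lg.fgfR (s x) (g x) (H x) (T x) (β x) (R x) := 
  h.fgf hs hH (h.bar hg hT hβ) (h.ricC hβ hR)


end Cl

end Crest.Agent.N207.Lg

end
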