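import Crest.Agent.N207.Lg.Hom

/-!
# Row 207 (helper54): locality, flat background, linearity in the field, first variation (`C²`)
-/

set_option autoImplicit false
set_option linter.unusedSectionVars false

open Finset Filter Set
open scoped Topology ContDiff
open Crest.GeometryTopology.CoordMetric Crest.GeometryTopology.ChartCurvature
  Crest.GeometryTopology.MetricFamily

noncomputable section

namespace Crest.Agent.N207.Lg

variable {n : ℕ} {G G' gb gb' K K' : MetricField n} {U : Set (En n)} {y : En n}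

/-! ### locality -/

theorem matT_congr (h : K =ᶠ[𝓝 y] K') : matT K =ᶠ[𝓝 y] matT K' :=
  h.mono fun z hz => by funext I; simp only [matT, hz]

theorem iv_congr (h : G =ᶠ[𝓝 y] G') : iv G =ᶠ[𝓝 y] iv G' :=
  h.mono fun z hz => by funext a b; simp only [iv, hz]

theorem sq_congr (h : G =ᶠ[𝓝 y] G') : sq G =ᶠ[𝓝 y] sq G' :=
  h.mono fun z hz => by simp only [sq, hz]

theorem jet_congr (h : K =ᶠ[𝓝 y] K') : jet K =ᶠ[𝓝 y] jet K' :=
  h.eventually_nhds.mono fun z hz => by
    funext c a b; exact pd_congr c (hz.mono fun w hw => by simp only [hw])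


theorem TG_congr (hb : gb =ᶠ[𝓝 y] gb') (h : K =ᶠ[𝓝 y] K') : TG gb K =ᶠ[𝓝 y] TG gb' K' :=
  (cov_congr hb (matT_congr h)).mono fun z hz => by simp only [TG, hz]


theorem gauT_congr (hb : gb =ᶠ[𝓝 y] gb') (h : G =ᶠ[𝓝 y] G') :
    gauT gb G =ᶠ[𝓝 y] gauT gb' G' := by
  filter_upwards [TG_congr hb h, iv_congr h] with z h1 h2
  funext I; simp only [gauT, h1, h2]

theorem redT_congr (hb : gb =ᶠ[𝓝 y] gb') (h : G =ᶠ[𝓝 y] G') :
    redT gb G =ᶠ[𝓝 y] redT gb' G' := by
  filter_upwards [gauT_congr hb h, cov_congr hb (gauT_congr hb h), h.eventually_nhds]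
    with z h1 h2 h3
  funext I; simp only [redT, h1, h2, ricci_congr h3]

theorem lagF_congr (hb : gb =ᶠ[𝓝 y] gb') (h : G =ᶠ[𝓝 y] G') :
    lagF gb G =ᶠ[𝓝 y] lagF gb' G' := by
  filter_upwards [TG_congr hb h, iv_congr h, sq_congr h, hb.eventually_nhds] with z h1 h2 h3 h4
  simp only [lagF, h1, h2, h3, ricci_congr h4]

theorem fgfF_congr (hb : gb =ᶠ[𝓝 y] gb') (h : G =ᶠ[𝓝 y] G') :
    fgfF gb G =ᶠ[𝓝 y] fgfF gb' G' := by
  filter_upwards [TG_congr hb h, iv_congr h, sq_congr h, hb.eventually_nhds] with z h1 h2 h3 h4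
  simp only [fgfF, h1, h2, h3, ricci_congr h4]

theorem C2.congr (h : C2 G y) (e : G' =ᶠ[𝓝 y] G) : C2 G' y :=
  ⟨fun a b => (h.c2 a b).congr_of_eventuallyEq (e.mono fun z hz => by simp only [hz]),
    (h.sy.and e).mono fun z hz => by rw [hz.2]; exact hz.1, by rw [e.self_of_nhds]; exact h.pos⟩

/-! ### the gauge vector -/


theorem fgfF_of_gauT (h : gauT gb G y = 0) : fgfF gb G y = lagF gb G y := by
  have : gv (iv G y) (TG gb G y) = 0 := funext fun j => congrFun h ![j]
  simp only [fgfF, lagF, fgf, gau, this, ip1_zero_left, mul_zero, sub_zero]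

theorem redT_of_gauT (h : gauT gb G =ᶠ[𝓝 y] 0) : redT gb G y = ricT G y := by
  have h1 : cov gb (gauT gb G) y = 0 := by
    rw [(cov_congr EventuallyEq.rfl h).eq_of_nhds, cov_zero]; rfl
  funext I
  simp only [redT, h1, h.eq_of_nhds, Pi.zero_apply, ricT]; ring

/-! ### constant background -/

section Flat

variable (A : Matrix (Fin n) (Fin n) ℝ)

theorem jet_const (y : En n) : jet (fun _ => A) y = 0 := by funext c a b; exact pd_const c _
theorem chr_const (y : En n) : christoffel (fun _ => A) y = 0 := by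
  rw [chr_eq, jet_const, chr_zero]
theorem dGam_const (y : En n) : dGam (fun _ => A) y = 0 := by
  funext c k i j; simp only [dGam, chr_const]; exact pd_const c _
theorem riemann_const (y : En n) : riemann (fun _ => A) y = 0 := by
  rw [riemann_eq, chr_const, dGam_const]; funext l k i j; simp [rie]
theorem ricci_const (y : En n) : ricci (fun _ => A) y = 0 := by
  funext i j; simp [ricci, chr_const, pd_const]
theorem TG_const (K : MetricField n) (y : En n) : TG (fun _ => A) K y = jet K y := by
  rw [TG_eq, chr_const]; exact bar_zero _ _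
theorem TTG_const (K : MetricField n) (y : En n) : TTG (fun _ => A) K y = jet2 K y := by
  rw [TTG_eq, chr_const, bar3_zero]; simp only [TG_const]; rfl
theorem cov_const_one (T : Tn n 1) (y : En n) (i j : Fin n) :
    cov (fun _ => A) T y ![i, j] = pderiv i (fun z => T z ![j]) y := by
  simp [cov_one, chr_const]

theorem riem_one (hU : IsOpen U) : IsRiemannianOn (fun _ => 1 : MetricField n) U :=
  ⟨hU, fun _ _ => contDiffOn_const, fun _ _ => Matrix.PosDef.one⟩

theorem c2_one (y : En n) : C2 (fun _ => 1 : MetricField n) y := .of_riem (riem_one isOpen_univ) trivial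



theorem gauT_const (G : MetricField n) (y : En n) (j : Fin n) :
    gauT (fun _ => A) G y ![j] = gv (iv G y) (jet G y) j := by
  simp only [gauT, TG_const, Matrix.cons_val_zero]

theorem redT_one (h : C2 G y) (i j : Fin n) : redT (fun _ => 1) G y ![i, j] =
    -(1 / 2) * lapJ (iv G y) (jet2 G y) i j + qd (iv G y) (jet G y) i j := by
  rw [(c2_one y).redT_eq h, TG_const, TTG_const, riemann_const]; simp [cvJ]

/-- `Ric = -½ G^{ab} ∂_a ∂_b G + qd + sym ∂B - B ⊗ B / 2` -/
theorem ricci_one (h : C2 G y) (i j : Fin n) : ricci G y i j =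
    -(1 / 2) * lapJ (iv G y) (jet2 G y) i j + qd (iv G y) (jet G y) i j +
      (1 / 2) * (pderiv i (fun z => gauT (fun _ => 1) G z ![j]) y +
        pderiv j (fun z => gauT (fun _ => 1) G z ![i]) y) -
      (1 / 2) * (gauT (fun _ => 1) G y ![i] * gauT (fun _ => 1) G y ![j]) := by
  rw [← redT_one h]
  simp only [redT, cov_const_one, Matrix.cons_val_zero, Matrix.cons_val_one]; ring

end Flat

/-! ### linearity in the field -/

section Lin

theorem jet_add (hK : ∀ a b, DifferentiableAt ℝ (fun z => K z a b) y)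
    (hK' : ∀ a b, DifferentiableAt ℝ (fun z => K' z a b) y) :
    jet (K + K') y = jet K y + jet K' y := by
  funext c a b; exact pd_add c (hK a b) (hK' a b)

theorem jet_sub (hK : ∀ a b, DifferentiableAt ℝ (fun z => K z a b) y)
    (hK' : ∀ a b, DifferentiableAt ℝ (fun z => K' z a b) y) :
    jet (K - K') y = jet K y - jet K' y := by
  funext c a b; exact pd_sub c (hK a b) (hK' a b)

theorem jet_smul (t : ℝ) (K : MetricField n) (y : En n) : jet (t • K) y = t • jet K y := by
  funext c a b; exact pd_cmul c t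

theorem TG_add (gb : MetricField n) (hK : ∀ a b, DifferentiableAt ℝ (fun z => K z a b) y)
    (hK' : ∀ a b, DifferentiableAt ℝ (fun z => K' z a b) y) :
    TG gb (K + K') y = TG gb K y + TG gb K' y := by
  rw [TG_eq, TG_eq, TG_eq, jet_add hK hK']; exact bar_add _ _ _ _ _


theorem TG_smul (gb : MetricField n) (t : ℝ) (K : MetricField n) (y : En n) :
    TG gb (t • K) y = t • TG gb K y := by
  rw [TG_eq, TG_eq, jet_smul]; exact bar_smul _ _ _ _

theorem TTG_smul (gb : MetricField n) (t : ℝ) (K : MetricField n) (y : En n) :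
    TTG gb (t • K) y = t • TTG gb K y := by
  have : matT (t • K) = t • matT K := rfl
  simp only [TTG, this, cov_smul]; rfl

theorem ev_d (hK : ∀ a b, ContDiffAt ℝ 2 (fun z => K z a b) y) :
    ∀ᶠ z in 𝓝 y, ∀ a b, DifferentiableAt ℝ (fun z => K z a b) z :=
  eventually_all.2 fun a => eventually_all.2 fun b =>
    ((hK a b).eventually (by simp)).mono fun _ hz => hz.differentiableAt (by norm_num)

theorem C2.d_TG' (hb : C2 gb y) (hK : ∀ a b, ContDiffAt ℝ 2 (fun z => K z a b) y) :
    DifferentiableAt ℝ (TG gb K) y := by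
  have h1 : ContDiffAt (F := M2 (Fin n) ℝ) ℝ 1 K y :=
    contDiffAt_pi.2 fun a => contDiffAt_pi.2 fun b => (hK a b).of_le one_le_two
  have h2 : ContDiffAt ℝ 1 (jet K) y :=
    contDiffAt_pi.2 fun c => contDiffAt_pi.2 fun a => contDiffAt_pi.2 fun b =>
      R247.Bo84.contDiffAt_pderiv (m := 1) (hK a b) (by norm_num) c
  have := cA_bar h1 h2 hb.c_gam
  rw [show (fun z => bar (K z) (jet K z) (christoffel gb z)) = TG gb K from
    funext fun z => (TG_eq gb K z).symm] at this
  exact this.differentiableAt (by norm_num)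

theorem C2.TTG_add (hb : C2 gb y) (hK : ∀ a b, ContDiffAt ℝ 2 (fun z => K z a b) y)
    (hK' : ∀ a b, ContDiffAt ℝ 2 (fun z => K' z a b) y) :
    TTG gb (K + K') y = TTG gb K y + TTG gb K' y := by
  have h1 : ∀ᶠ z in 𝓝 y, TG gb (K + K') z = TG gb K z + TG gb K' z :=
    ((ev_d hK).and (ev_d hK')).mono fun z hz => TG_add gb hz.1 hz.2
  funext c d a b
  have h2 : pderiv c (fun z => TG gb (K + K') z d a b) y =
      pderiv c (fun z => TG gb K z d a b) y + pderiv c (fun z => TG gb K' z d a b) y := by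
    rw [← pd_add c (dA_ap3 (hb.d_TG' hK) d a b) (dA_ap3 (hb.d_TG' hK') d a b)]
    exact pd_congr c (h1.mono fun z hz => by simp only [hz, Pi.add_apply])
  simp only [Lg.TTG_eq, bar3, h2, h1.self_of_nhds, Pi.add_apply, mul_add, sum_add_distrib]; ring


theorem C2.TG_self (hb : C2 gb y) : TG gb gb y = 0 := by
  funext c a b
  have h1 := hb.chr_TG hb
  have h2 : ∀ m i j, low (TG gb gb y) m i j = 0 := fun m i j => by
    rw [← hb.iv_inv.r (fun l => low (TG gb gb y) l i j) m]
    have : ∀ l, ∑ m, iv gb y l m * low (TG gb gb y) m i j = 0 := fun l => by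
      have := congrFun (congrFun (congrFun h1 l) i) j
      rwa [sub_self] at this
    simp only [this, mul_zero, sum_const_zero]
  have h3 := congrFun (congrFun (lowM_add (TG_sy gb hb.sy) c) a) b
  simp only [lowM, Matrix.add_apply, Matrix.transpose_apply, Matrix.of_apply, h2] at h3
  rw [← h3]; simp

theorem C2.TTG_self (hb : C2 gb y) : TTG gb gb y = 0 := by
  funext c d a b
  have h2 : pderiv c (fun z => TG gb gb z d a b) y = 0 := by
    rw [← pd_const (y := y) c (0 : ℝ)]
    exact pd_congr c (hb.ev.mono fun z hz => by simp only [hz.TG_self, Pi.zero_apply])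
  simp [Lg.TTG_eq, bar3, h2, hb.TG_self]

theorem C2.gauT_self (hb : C2 gb y) : gauT gb gb y = 0 := by
  funext I; simp only [gauT, hb.TG_self, gv_zero, Pi.zero_apply]

theorem C2.redT_self (hb : C2 gb y) : redT gb gb y = ricT gb y :=
  redT_of_gauT (hb.ev.mono fun _ hz => hz.gauT_self)

theorem lapJ_TTG (G K : MetricField n) (y : En n) (a b : Fin n) :
    lapJ (iv G y) (TTG G K y) a b = lapT G (matT K) y ![a, b] := rfl

end Lin

end Crest.Agent.N207.Lg

end
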