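import Crest.Agent.N207.Lg.Nat

/-!
# Row 207 (helper54): linearisation of the reduced Ricci tensor and of the Lagrangians along `G + s w`
-/

set_option autoImplicit false
set_option linter.unusedSectionVars false

open Finset Filter Set
open scoped Topology ContDiff
open Crest.GeometryTopology.CoordMetric Crest.GeometryTopology.ChartCurvature
  Crest.GeometryTopology.MetricFamily

noncomputable section

namespace Crest.Agent.N207.Lg

section Curve

variable {ι 𝕜 : Type*} [Fintype ι] [NontriviallyNormedField 𝕜] {J : Set 𝕜} {t : 𝕜}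

/-- derivative of a curve of 4-arrays -/
def HD4 (J : Set 𝕜) (t : 𝕜) (u : 𝕜 → M4 ι 𝕜) (u' : M4 ι 𝕜) : Prop :=
  ∀ i j k l, HasDerivWithinAt (fun r => u r i j k l) (u' i j k l) J t

variable {g H K L : 𝕜 → M2 ι 𝕜} {g' H' K' L' a : M2 ι 𝕜} {T S : 𝕜 → M3 ι 𝕜} {T' S' : M3 ι 𝕜}
  {Q : 𝕜 → M4 ι 𝕜} {Q' : M4 ι 𝕜}

theorem hd_up2 (hH : HD2 J t H H') (hK : HD2 J t K K') (hL : HD2 J t L L') :
    HD2 J t (fun r => up2 (H r) (K r) (L r))
      (up2 H' (K t) (L t) + up2 (H t) K' (L t) + up2 (H t) (K t) L') := fun i j => by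
  refine (HasDerivWithinAt.fun_sum fun x _ => HasDerivWithinAt.fun_sum fun y _ =>
    ((hH i x).fun_mul (hK x y)).fun_mul (hL y j)).congr_deriv ?_
  simp only [up2, Pi.add_apply, add_mul, sum_add_distrib]

theorem add_gv (A B : M2 ι 𝕜) (T : M3 ι 𝕜) : gv (A + B) T = gv A T + gv B T := by
  funext j
  simp only [gv, uT, vT, add_tr2, Pi.add_apply, add_mul, sum_add_distrib]; ring

theorem hd_qd4 (hH : HD2 J t H H') (hL : HD2 J t L L') (hT : HD3 J t T T') (hS : HD3 J t S S') :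
    HD2 J t (fun r => qd4 (H r) (L r) (T r) (S r))
      (qd4 H' (L t) (T t) (S t) + qd4 (H t) L' (T t) (S t) + qd4 (H t) (L t) T' (S t) +
        qd4 (H t) (L t) (T t) S') := fun i j => by
  have h1 : ∀ k, HD2 J t (fun r => up2 (H r) (T r k) (L r)) _ := fun k =>
    hd_up2 hH (K := fun r => T r k) (hT k) hL
  refine (((((HasDerivWithinAt.fun_sum fun k _ => hd_chr (h1 k) hS k i j).fun_neg.fun_add
    (HasDerivWithinAt.fun_sum fun k _ => hd_chr (h1 j) hS k k i)).fun_sub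
    (hd_cc (hd_chr hH hT) (hd_chr hL hS) i j)).fun_add
    (((hd_gv (h1 i) hS j).fun_add (hd_gv (h1 j) hS i)).const_mul (1 / 2))).fun_add
    (((hd_gv hH hT i).fun_mul (hd_gv hL hS j)).const_mul (1 / 2))).congr_deriv ?_
  simp only [qd4, add_chr, add_gv, cc_add_left, cc_add_right, Pi.add_apply, sum_add_distrib]
  ring

theorem hd_lapJ (hH : HD2 J t H H') (hQ : HD4 J t Q Q') :
    HD2 J t (fun r => lapJ (H r) (Q r)) (lapJ H' (Q t) + lapJ (H t) Q') := fun i j => by
  simp only [lapJ, Pi.add_apply, ← sum_add_distrib]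
  exact .fun_sum fun x _ => .fun_sum fun y _ => (hH x y).fun_mul (hQ x y i j)

theorem hd_cvJ (R : M4 ι 𝕜) (hg : HD2 J t g g') (hH : HD2 J t H H') :
    HD2 J t (fun r => cvJ (g r) (H r) R) (cvJ g' (H t) R + cvJ (g t) H' R) := fun i j => by
  refine ((HasDerivWithinAt.fun_sum fun k _ => HasDerivWithinAt.fun_sum fun l _ =>
    HasDerivWithinAt.fun_sum fun m _ => (hH k l).fun_mul (((hg m j).const_mul (R m l k i)).fun_add
      ((hg m i).const_mul (R m l k j)))).const_mul (1 / 2)).congr_deriv ?_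
  simp only [cvJ, Pi.add_apply, sum_add_distrib]; ring

/-- the linearisation of `-lapJ / 2 + qd - cvJ` -/
def dred (g H : M2 ι 𝕜) (T : M3 ι 𝕜) (TT R : M4 ι 𝕜) (k : M2 ι 𝕜) (τ : M3 ι 𝕜) (ττ : M4 ι 𝕜) :
    M2 ι 𝕜 := fun i j =>
  -(1 / 2) * lapJ H ττ i j + (1 / 2) * lapJ (up H k) TT i j +
    (qd4 H H τ T i j + qd4 H H T τ i j - qd4 (up H k) H T T i j - qd4 H (up H k) T T i j) -
    (cvJ k H R i j - cvJ g (up H k) R i j)

theorem qd4_zero3 (H L : M2 ι 𝕜) (S : M3 ι 𝕜) : qd4 H L 0 S = 0 := by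
  have := qd4_sub3 H L 0 0 S; rwa [sub_self, sub_self] at this
theorem qd4_zero4 (H L : M2 ι 𝕜) (S : M3 ι 𝕜) : qd4 H L S 0 = 0 := by
  have := qd4_sub4 H L S 0 0; rwa [sub_self, sub_self] at this
theorem qd4_neg1 (H L : M2 ι 𝕜) (T S : M3 ι 𝕜) : qd4 (-H) L T S = -qd4 H L T S := by
  have h0 : qd4 0 L T S = 0 := by have := qd4_sub1 0 0 L T S; rwa [sub_self, sub_self] at this
  have := qd4_sub1 0 H L T S; rwa [zero_sub, h0, zero_sub] at this
theorem qd4_neg2 (H L : M2 ι 𝕜) (T S : M3 ι 𝕜) : qd4 H (-L) T S = -qd4 H L T S := by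
  have h0 : qd4 H 0 T S = 0 := by have := qd4_sub2 H 0 0 T S; rwa [sub_self, sub_self] at this
  have := qd4_sub2 H 0 L T S; rwa [zero_sub, h0, zero_sub] at this
theorem neg_lapJ (H : M2 ι 𝕜) (Q : M4 ι 𝕜) : lapJ (-H) Q = -lapJ H Q := by
  funext i j; simp only [lapJ, Pi.neg_apply, neg_mul, sum_neg_distrib]
theorem cvJ_neg (g H : M2 ι 𝕜) (R : M4 ι 𝕜) : cvJ g (-H) R = -cvJ g H R := by
  funext i j; simp only [cvJ, Pi.neg_apply, neg_mul, sum_neg_distrib, mul_neg]

theorem hd_red (R : M4 ι 𝕜) (hg : HD2 J t g a) (hH : HD2 J t H (-up (H t) a)) (hT : HD3 J t T T')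
    (hQ : HD4 J t Q Q') : HD2 J t (fun r i j => -(1 / 2) * lapJ (H r) (Q r) i j +
      qd (H r) (T r) i j - cvJ (g r) (H r) R i j) (dred (g t) (H t) (T t) (Q t) R a T' Q') :=
  fun i j => by
    simp only [qd_eq]
    refine ((((hd_lapJ hH hQ i j).const_mul (-(1 / 2))).fun_add (hd_qd4 hH hH hT hT i j)).fun_sub
      (hd_cvJ R hg hH i j)).congr_deriv ?_
    simp only [dred, qd4_neg1, qd4_neg2, neg_lapJ, cvJ_neg, Pi.add_apply, Pi.neg_apply]; ring

end Curve

variable {n : ℕ} {G gb w : MetricField n} {U : Set (En n)} {y : En n}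

/-- the segment `G + s w` -/
abbrev sg (G w : MetricField n) (s : ℝ) : MetricField n := fun z => G z + s • w z

theorem hd_sg (G w : MetricField n) (y : En n) (J : Set ℝ) (t : ℝ) :
    HD2 J t (fun s => sg G w s y) (w y) := fun a b => by
  have := ((hasDerivAt_id t).mul_const (w y a b)).const_add (G y a b)
  rw [one_mul] at this
  exact this.hasDerivWithinAt

theorem TG_sg (gb : MetricField n) (hG : ∀ a b, DifferentiableAt ℝ (fun z => G z a b) y)
    (hw : ∀ a b, DifferentiableAt ℝ (fun z => w z a b) y) (s : ℝ) :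
    TG gb (sg G w s) y = TG gb G y + s • TG gb w y := by
  rw [← TG_smul]
  exact TG_add gb (K' := s • w) hG fun a b => (hw a b).const_mul s

theorem C2.TTG_sg (hb : C2 gb y) (hG : ∀ a b, ContDiffAt ℝ 2 (fun z => G z a b) y)
    (hw : ∀ a b, ContDiffAt ℝ 2 (fun z => w z a b) y) (s : ℝ) :
    TTG gb (sg G w s) y = TTG gb G y + s • TTG gb w y := by
  rw [← TTG_smul]
  exact hb.TTG_add (K' := s • w) hG fun a b => contDiffAt_const.mul (hw a b)

theorem hd_TG_sg (gb : MetricField n) (hG : ∀ a b, DifferentiableAt ℝ (fun z => G z a b) y)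
    (hw : ∀ a b, DifferentiableAt ℝ (fun z => w z a b) y) (J : Set ℝ) (t : ℝ) :
    HD3 J t (fun s => TG gb (sg G w s) y) (TG gb w y) := fun c a b => by
  simp only [TG_sg gb hG hw]
  have := ((hasDerivAt_id t).mul_const (TG gb w y c a b)).const_add (TG gb G y c a b)
  rw [one_mul] at this
  exact this.hasDerivWithinAt

theorem hd_iv_sg (J : Set ℝ) {t : ℝ} (hd : (sg G w t y).det ≠ 0) :
    HD2 J t (fun s => iv (sg G w s) y) (-up (iv (sg G w t) y) (w y)) := hd_inv (hd_sg G w y J t) hd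




theorem sg_zero (G w : MetricField n) : sg G w 0 = G := by funext z; simp [sg]

theorem C2.ev_sg (h : C2 G y) (hw : ∀ a b, ContDiffAt ℝ 2 (fun z => w z a b) y)
    (hs : ∀ᶠ z in 𝓝 y, Sy2 (w z)) : ∀ᶠ s in 𝓝 (0 : ℝ), C2 (sg G w s) y := by
  have h1 : ContinuousAt (fun s => (sg G w s y).det) 0 :=
    ((hd_det (hd_sg G w y univ 0)).hasDerivAt univ_mem).continuousAt
  have h2 : ∀ᶠ s in 𝓝 (0 : ℝ), 0 < (sg G w s y).det :=
    h1.eventually (lt_mem_nhds (by show 0 < (sg G w 0 y).det; rw [sg_zero]; exact h.pos))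
  refine h2.mono fun s hs' => ⟨fun a b => (h.c2 a b).add (contDiffAt_const.mul (hw a b)),
    (h.sy.and hs).mono fun z hz a b => ?_, hs'⟩
  change G z a b + s * w z a b = G z b a + s * w z b a
  rw [hz.1 a b, hz.2 a b]

/-- the linearisation of the reduced Ricci tensor at any `G` -/
theorem C2.hasDerivAt_redT (hb : C2 gb y) (h : C2 G y)
    (hw : ∀ a b, ContDiffAt ℝ 2 (fun z => w z a b) y) (hs : ∀ᶠ z in 𝓝 y, Sy2 (w z)) (i j : Fin n) :
    HasDerivAt (fun s : ℝ => redT gb (fun z => G z + s • w z) y ![i, j])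
      (dred (G y) (iv G y) (TG gb G y) (TTG gb G y) (riemann gb y) (w y) (TG gb w y)
        (TTG gb w y) i j) 0 := by
  have h4 : HD4 univ 0 (fun s => TTG gb (sg G w s) y) (TTG gb w y) := fun c d a b => by
    simp only [hb.TTG_sg h.c2 hw]
    have := ((hasDerivAt_id (0 : ℝ)).mul_const (TTG gb w y c d a b)).const_add (TTG gb G y c d a b)
    rw [one_mul] at this
    exact this.hasDerivWithinAt
  have h5 := (hd_red (H := fun s => iv (sg G w s) y) (riemann gb y) (hd_sg G w y univ 0)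
    (hd_iv_sg univ (by rw [sg_zero]; exact h.pos.ne'))
    (hd_TG_sg gb h.d (fun a b => (hw a b).differentiableAt (by norm_num)) univ 0) h4 i j).hasDerivAt
    univ_mem
  have e : sg G w 0 y = G y := congrFun (sg_zero G w) y
  simp only [sg_zero] at h5
  refine (h5.congr_of_eventuallyEq
    ((h.ev_sg hw hs).mono fun s hs' => hb.redT_eq hs' i j)).congr_deriv ?_
  exact congrArg (fun A => dred A (iv G y) (TG gb G y) (TTG gb G y) (riemann gb y) (w y)
    (TG gb w y) (TTG gb w y) i j) e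

/-- the zero order term of `2 D𝓡(gb)` -/
def popV (gb w : MetricField n) (y : En n) : M2 (Fin n) ℝ := fun i j =>
  2 * (cvJ (gb y) (up (iv gb y) (w y)) (riemann gb y) i j - cvJ (w y) (iv gb y) (riemann gb y) i j)

/-- `2 D𝓡(gb) w = -Δ w + popV` (`CB.Pop gb w y i j` unfolds to the left side) -/
theorem C2.pop_eq (hb : C2 gb y) (hw : ∀ a b, ContDiffAt ℝ 2 (fun z => w z a b) y)
    (hs : ∀ᶠ z in 𝓝 y, Sy2 (w z)) (i j : Fin n) :
    2 * deriv (fun s : ℝ => redT gb (fun z => gb z + s • w z) y ![i, j]) 0 =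
      -lapT gb (matT w) y ![i, j] + popV gb w y i j := by
  rw [(hb.hasDerivAt_redT hb hw hs i j).deriv, ← lapJ_TTG]
  have z : ∀ H : M2 (Fin n) ℝ, lapJ H 0 = 0 := fun H => by funext a b; simp [lapJ]
  simp only [dred, popV, hb.TG_self, hb.TTG_self, qd4_zero3, qd4_zero4, z, Pi.zero_apply]
  ring

theorem popV_const (A : Matrix (Fin n) (Fin n) ℝ) (w : MetricField n) (y : En n) :
    popV (fun _ => A) w y = 0 := by
  funext i j; simp [popV, riemann_const, cvJ]


theorem redT_sy (hG : C2 G y) (gb : MetricField n) (hric : ∀ i j, ricci G y i j = ricci G y j i)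
    (i j : Fin n) : redT gb G y ![i, j] = redT gb G y ![j, i] := by
  have _ := hG
  simp only [redT, Matrix.cons_val_zero, Matrix.cons_val_one, hric i j]; ring

theorem C2.ricci_sy (h : C2 G y) (i j : Fin n) : ricci G y i j = ricci G y j i := by
  have h1 := h.redT_eq h i j
  have h2 := h.redT_eq h j i
  rw [h.redT_self, h.TG_self, h.TTG_self, qd_zero] at h1 h2
  have z : ∀ a b, lapJ (iv G y) 0 a b = 0 := fun a b => by simp [lapJ]
  have e : cvJ (G y) (iv G y) (riemann G y) i j = cvJ (G y) (iv G y) (riemann G y) j i := by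
    simp only [cvJ, add_comm]
  simp only [z, Pi.zero_apply] at h1 h2
  exact h1.trans (e ▸ h2.symm)

theorem C2.redT_sy (h : C2 G y) (gb : MetricField n) (i j : Fin n) :
    redT gb G y ![i, j] = redT gb G y ![j, i] := Lg.redT_sy h gb h.ricci_sy i j

end Crest.Agent.N207.Lg

end
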