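import Crest.Agent.N207.Lg.Defs
import Crest.Agent.N207.A.Co3

-- ▼ part N207/Lg/Alg1
section

/-!
# Row 207 (helper54): index algebra for the Lagrangian, part 1
-/

set_option autoImplicit false
set_option linter.unusedSectionVars false

open Finset

noncomputable section

namespace Crest.Agent.N207.Lg

variable {ι 𝕜 : Type*} [Fintype ι] [Field 𝕜]

/-- symmetric -/
def Sy2 (H : M2 ι 𝕜) : Prop := ∀ i j, H i j = H j i
/-- symmetric in the last two indices -/
def Sy3 (C : M3 ι 𝕜) : Prop := ∀ k i j, C k i j = C k j i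

theorem sum3_bij (φ : ι × ι × ι → ι × ι × ι) (hφ : Function.Injective φ) {f g : M3 ι 𝕜}
    (h : ∀ a b c, f a b c = g (φ (a, b, c)).1 (φ (a, b, c)).2.1 (φ (a, b, c)).2.2) :
    ∑ a, ∑ b, ∑ c, f a b c = ∑ a, ∑ b, ∑ c, g a b c := by
  have e : ∀ f : M3 ι 𝕜, ∑ a, ∑ b, ∑ c, f a b c = ∑ x : ι × ι × ι, f x.1 x.2.1 x.2.2 := fun f => by
    simp only [Fintype.sum_prod_type]
  rw [e, e]
  exact Fintype.sum_bijective φ (Finite.injective_iff_bijective.1 hφ) _ _ fun x => h _ _ _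

theorem sum4_bij (φ : ι × ι × ι × ι → ι × ι × ι × ι) (hφ : Function.Injective φ) {f g : M4 ι 𝕜}
    (h : ∀ a b c d, f a b c d = g (φ (a, b, c, d)).1 (φ (a, b, c, d)).2.1 (φ (a, b, c, d)).2.2.1
      (φ (a, b, c, d)).2.2.2) :
    ∑ a, ∑ b, ∑ c, ∑ d, f a b c d = ∑ a, ∑ b, ∑ c, ∑ d, g a b c d := by
  have e : ∀ f : M4 ι 𝕜, ∑ a, ∑ b, ∑ c, ∑ d, f a b c d =
      ∑ x : ι × ι × ι × ι, f x.1 x.2.1 x.2.2.1 x.2.2.2 := fun f => by
    simp only [Fintype.sum_prod_type]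
  rw [e, e]
  exact Fintype.sum_bijective φ (Finite.injective_iff_bijective.1 hφ) _ _ fun x => h _ _ _ _

/-- reindex a triple sum: `perm3 a b c => (b, c, a)` leaves `f a b c = g b c a` -/
macro "perm3 " a:ident b:ident c:ident " => " t:term : tactic =>
  `(tactic| (
    refine sum3_bij (fun x => match x with | ($a, $b, $c) => $t)
      (by rintro ⟨_, _, _⟩ ⟨_, _, _⟩ h; simp only [Prod.mk.injEq] at h ⊢; tauto)
      fun $a $b $c => ?_
    try dsimp only))

/-- reindex a quadruple sum -/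
macro "perm4 " a:ident b:ident c:ident d:ident " => " t:term : tactic =>
  `(tactic| (
    refine sum4_bij (fun x => match x with | ($a, $b, $c, $d) => $t)
      (by rintro ⟨_, _, _, _⟩ ⟨_, _, _, _⟩ h; simp only [Prod.mk.injEq] at h ⊢; tauto)
      fun $a $b $c $d => ?_
    try dsimp only))

/-- the connection terms in the derivative of a contravariant symmetric 2-tensor DENSITY -/
def con (X : M2 ι 𝕜) (Γ : M3 ι 𝕜) (c : ι) : M2 ι 𝕜 := fun i j =>
  (∑ l, Γ l l c) * X i j - ∑ l, Γ i c l * X l j - ∑ l, Γ j c l * X i l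

theorem low_sy {p : M3 ι 𝕜} (hp : Sy3 p) : Sy3 (low p) := fun m i j => by
  simp only [low]; rw [hp m i j]; ring

theorem chr_sy (H : M2 ι 𝕜) {p : M3 ι 𝕜} (hp : Sy3 p) : Sy3 (chr H p) := fun k i j => by
  simp only [chr]; exact sum_congr rfl fun l _ => by rw [low_sy hp l i j]

theorem dchr_sy (H k : M2 ι 𝕜) {T τ : M3 ι 𝕜} (hT : Sy3 T) (hτ : Sy3 τ) : Sy3 (dchr H T k τ) :=
  fun a i j => by simp only [dchr]; rw [chr_sy H hτ a i j, chr_sy _ hT a i j]

theorem up_sy {H k : M2 ι 𝕜} (hH : Sy2 H) (hk : Sy2 k) : Sy2 (up H k) := fun i j => by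
  simp only [up]
  rw [sum_comm]
  exact sum_congr rfl fun a _ => sum_congr rfl fun b _ => by rw [hH i b, hH a j, hk b a]; ring

theorem vG_sy (s : 𝕜) {H k : M2 ι 𝕜} (hH : Sy2 H) (hk : Sy2 k) : Sy2 (vG s H k) := fun i j => by
  simp only [vG]; rw [hH i j, up_sy hH hk i j]

theorem bar_sy {g : M2 ι 𝕜} {p : M3 ι 𝕜} (β : M3 ι 𝕜) (hg : Sy2 g) (hp : Sy3 p) :
    Sy3 (bar g p β) := fun c a b => by
  simp only [bar]
  rw [hp c a b]
  have h1 : ∑ m, β m c a * g m b = ∑ m, β m c a * g b m := sum_congr rfl fun m _ => by rw [hg m b]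
  have h2 : ∑ m, β m c b * g a m = ∑ m, β m c b * g m a := sum_congr rfl fun m _ => by rw [hg m a]
  rw [h1, h2]; ring

theorem fl_add (X Y : M2 ι 𝕜) (C : M3 ι 𝕜) (c : ι) : fl (X + Y) C c = fl X C c + fl Y C c := by
  simp only [fl, Pi.add_apply, add_mul, sum_add_distrib]; ring

theorem fl_smul (s : 𝕜) (X : M2 ι 𝕜) (C : M3 ι 𝕜) (c : ι) : fl (s • X) C c = s * fl X C c := by
  simp only [fl, Pi.smul_apply, smul_eq_mul, mul_sub, mul_sum, mul_assoc]

theorem tr2_add (X a b : M2 ι 𝕜) : tr2 X (a + b) = tr2 X a + tr2 X b := by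
  simp only [tr2, Pi.add_apply, mul_add, sum_add_distrib]

theorem tr2_sub (X a b : M2 ι 𝕜) : tr2 X (a - b) = tr2 X a - tr2 X b := by
  simp only [tr2, Pi.sub_apply, mul_sub, sum_sub_distrib]

theorem tr2_smul (s : 𝕜) (X a : M2 ι 𝕜) : tr2 X (s • a) = s * tr2 X a := by
  simp only [tr2, Pi.smul_apply, smul_eq_mul, mul_sum]
  exact sum_congr rfl fun _ _ => sum_congr rfl fun _ _ => by ring

theorem tr2_comm (X a : M2 ι 𝕜) : tr2 X a = tr2 a X := by
  simp only [tr2]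
  exact sum_congr rfl fun _ _ => sum_congr rfl fun _ _ => by ring

theorem smul_tr2 (s : 𝕜) (X a : M2 ι 𝕜) : tr2 (s • X) a = s * tr2 X a := by
  rw [tr2_comm, tr2_smul, tr2_comm]

theorem add_tr2 (X Y a : M2 ι 𝕜) : tr2 (X + Y) a = tr2 X a + tr2 Y a := by
  rw [tr2_comm, tr2_add, tr2_comm, tr2_comm a Y]

theorem sub_tr2 (X Y a : M2 ι 𝕜) : tr2 (X - Y) a = tr2 X a - tr2 Y a := by
  rw [tr2_comm, tr2_sub, tr2_comm, tr2_comm a Y]

theorem cc_sub_left (C D E : M3 ι 𝕜) : cc (C - D) E = cc C E - cc D E := by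
  funext i j
  simp only [cc, Pi.sub_apply, sub_mul, sum_sub_distrib]; ring

theorem cc_sub_right (C D E : M3 ι 𝕜) : cc E (C - D) = cc E C - cc E D := by
  funext i j
  simp only [cc, Pi.sub_apply, mul_sub, sum_sub_distrib]; ring

/-- the core contraction identity -/
theorem fl_con {X : M2 ι 𝕜} {Γ : M3 ι 𝕜} (C : M3 ι 𝕜) (hX : Sy2 X) (hΓ : Sy3 Γ) :
    ∑ c, fl (con X Γ c) C c = -(tr2 X (cc Γ C) + tr2 X (cc C Γ)) := by
  have h1 : ∑ c, ∑ i, ∑ j, ∑ l, Γ l l c * X i j * C c i j =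
      ∑ i, ∑ j, ∑ k, ∑ l, X i j * (Γ k k l * C l i j) := by
    perm4 c i j l => (i, j, l, c); ring
  have h2 : ∑ c, ∑ i, ∑ j, ∑ l, Γ i c l * X l j * C c i j =
      ∑ i, ∑ j, ∑ k, ∑ l, X i j * (Γ k j l * C l k i) := by
    perm4 c i j l => (j, l, i, c); rw [hX j l, hΓ i l c]; ring
  have h3 : ∑ c, ∑ i, ∑ j, ∑ l, Γ j c l * X i l * C c i j =
      ∑ i, ∑ j, ∑ k, ∑ l, X i j * (C k j l * Γ l k i) := by
    perm4 c i j l => (l, i, c, j); rw [hX l i]; ring
  have h4 : ∑ c, ∑ i, ∑ j, ∑ l, Γ l l c * X i c * C j j i =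
      ∑ c, ∑ i, ∑ j, ∑ l, Γ c c l * X i l * C j j i := by
    perm4 c i j l => (l, i, j, c)
  have h5 : ∑ c, ∑ i, ∑ j, ∑ l, Γ i c l * X l c * C j j i =
      ∑ i, ∑ j, ∑ k, ∑ l, X i j * (C k k l * Γ l i j) := by
    perm4 c i j l => (c, l, j, i); rw [hX c l]; ring
  simp only [fl, con, tr2, cc, sub_mul, mul_sub, sum_mul, mul_sum, sum_sub_distrib]
  rw [h1, h2, h3, h4, h5]; ring

theorem fl_der (X : M2 ι 𝕜) (dC : M4 ι 𝕜) :
    ∑ c, fl X (dC c) c = tr2 X fun i j => ∑ k, dC k k i j - ∑ k, dC j k k i := by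
  have h1 : ∑ c, ∑ i, ∑ j, X i j * dC c c i j = ∑ i, ∑ j, ∑ k, X i j * dC k k i j := by
    perm3 c i j => (i, j, c)
  have h2 : ∑ c, ∑ i, ∑ j, X i c * dC c j j i = ∑ i, ∑ j, ∑ k, X i j * dC j k k i := by
    perm3 c i j => (i, c, j)
  simp only [fl, tr2, mul_sub, mul_sum, sum_sub_distrib]
  rw [h1, h2]

/-- Palatini identity against a symmetric density `X` with derivative `DX c + con X Γ c` -/
theorem palatini {X : M2 ι 𝕜} {Γ : M3 ι 𝕜} (β DX : M3 ι 𝕜) (dΓ dβ : M4 ι 𝕜) (hX : Sy2 X)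
    (hΓ : Sy3 Γ) :
    tr2 X (ricC Γ dΓ) = tr2 X (ricC β dβ) + tr2 X (cc (Γ - β) (Γ - β)) +
      ∑ c, (fl (DX c + con X Γ c) (Γ - β) c + fl X (dΓ c - dβ c) c) - ∑ c, fl (DX c) (Γ - β) c := by
  have h1 := fl_con (Γ - β) hX hΓ
  have h2 := fl_der X (dΓ - dβ)
  have h3 : ricC Γ dΓ = ricC β dβ + cc (Γ - β) (Γ - β) - cc Γ (Γ - β) - cc (Γ - β) Γ +
      fun i j => ∑ k, (dΓ - dβ) k k i j - ∑ k, (dΓ - dβ) j k k i := by
    funext i j
    simp only [cc_sub_left, cc_sub_right, ricC, Pi.add_apply, Pi.sub_apply, sum_sub_distrib]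
    ring
  simp only [fl_add, sum_add_distrib]
  have h4 : ∑ c, fl X (dΓ c - dβ c) c = ∑ c, fl X ((dΓ - dβ) c) c := rfl
  rw [h3, h4, h2, h1]
  simp only [tr2_add, tr2_sub]
  ring

/-! ### matrix forms -/

section Mat

variable [DecidableEq ι]

omit [DecidableEq ι] in
theorem up_eq (H k : M2 ι 𝕜) : up H k = (Matrix.of H * Matrix.of k * Matrix.of H : Matrix ι ι 𝕜) := by
  funext i j
  simp only [up, Matrix.mul_apply, Matrix.of_apply, sum_mul]
  rw [sum_comm]

omit [DecidableEq ι] in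
theorem tr2_eq (H : M2 ι 𝕜) {k : M2 ι 𝕜} (hk : Sy2 k) :
    tr2 H k = (Matrix.of H * Matrix.of k).trace := by
  simp only [tr2, Matrix.trace, Matrix.diag, Matrix.mul_apply, Matrix.of_apply]
  exact sum_congr rfl fun a _ => sum_congr rfl fun b _ => by rw [hk a b]

end Mat

/-- `A_c` with `A_c + A_cᵀ = p_c` -/
def lowM (p : M3 ι 𝕜) (c : ι) : Matrix ι ι 𝕜 := Matrix.of fun m l => low p m c l

omit [Fintype ι] in
theorem lowM_add [CharZero 𝕜] {p : M3 ι 𝕜} (hp : Sy3 p) (c : ι) :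
    lowM p c + (lowM p c).transpose = Matrix.of (p c) := by
  ext m l
  simp only [lowM, low, Matrix.add_apply, Matrix.transpose_apply, Matrix.of_apply]
  rw [hp c l m, hp l c m, hp m c l]; ring

omit [Fintype ι] in
theorem Sy2.tp {H : M2 ι 𝕜} (hH : Sy2 H) : (Matrix.of H).transpose = Matrix.of H := by
  ext i j; exact hH j i

theorem trace_half [CharZero 𝕜] {H A : Matrix ι ι 𝕜} (hH : H.transpose = H) :
    (H * A).trace = (1 / 2) * (H * (A + A.transpose)).trace := by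
  have : (H * A.transpose).trace = (H * A).trace := by
    rw [← Matrix.trace_transpose, Matrix.transpose_mul, Matrix.transpose_transpose, hH,
      Matrix.trace_mul_comm]
  rw [Matrix.mul_add, Matrix.trace_add, this]; ring

theorem con_chr (X K : M2 ι 𝕜) {p : M3 ι 𝕜} (hp : Sy3 p) (c : ι) :
    con X (chr K p) c = ((Matrix.of K * lowM p c).trace • Matrix.of X -
      Matrix.of K * lowM p c * Matrix.of X -
      Matrix.of X * (Matrix.of K * lowM p c).transpose : Matrix ι ι 𝕜) := by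
  funext i j
  simp only [con, chr, lowM, Matrix.sub_apply, Matrix.smul_apply, Matrix.mul_apply,
    Matrix.of_apply, Matrix.transpose_apply, Matrix.trace, Matrix.diag, smul_eq_mul]
  congr 1
  · congr 1
    congr 1
    exact sum_congr rfl fun l _ => sum_congr rfl fun m _ => by rw [low_sy hp m l c]
  · exact sum_congr rfl fun l _ => by ring

theorem con_sub (X : M2 ι 𝕜) (Γ D : M3 ι 𝕜) (c : ι) : con X (Γ - D) c = con X Γ c - con X D c := by
  funext i j
  simp only [con, Pi.sub_apply, sub_mul, sum_sub_distrib]; ring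

theorem vG_eq (s : 𝕜) (H : M2 ι 𝕜) {k : M2 ι 𝕜} (hk : Sy2 k) :
    vG s H k = (s • (((1 / 2) * (Matrix.of H * Matrix.of k).trace) • Matrix.of H -
      Matrix.of H * Matrix.of k * Matrix.of H) : Matrix ι ι 𝕜) := by
  funext i j
  simp only [vG, tr2_eq H hk, up_eq, Matrix.smul_apply, Matrix.sub_apply, Matrix.of_apply,
    smul_eq_mul]

/-- metric compatibility for the density `√g g⁻¹` -/
theorem vG_con [CharZero 𝕜] (s : 𝕜) {H : M2 ι 𝕜} {p : M3 ι 𝕜} (hH : Sy2 H) (hp : Sy3 p) (c : ι) :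
    vG s H (p c) = con (s • H) (chr H p) c := by
  rw [con_chr _ _ hp, vG_eq s H (hp c), trace_half (A := lowM p c) hH.tp, ← lowM_add hp c]
  have e : (Matrix.of (s • H) : Matrix ι ι 𝕜) = s • Matrix.of H := rfl
  rw [e, Matrix.transpose_mul, hH.tp]
  generalize (Matrix.of H * (lowM p c + (lowM p c).transpose)).trace = x1
  change (_ : Matrix ι ι 𝕜) = _
  simp only [Matrix.mul_add, Matrix.add_mul, Matrix.mul_smul, Matrix.smul_mul, Matrix.mul_assoc]
  module

/-- the derivative of `vG s H k` when `g` moves by `a` and `k` by `b` -/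
def dvG (s : 𝕜) (H k a b : M2 ι 𝕜) : M2 ι 𝕜 := fun i j =>
  (1 / 2) * tr2 H a * vG s H k i j +
    s * ((1 / 2) * (tr2 H b - tr2 (up H a) k) * H i j - (1 / 2) * tr2 H k * up H a i j -
      up H b i j + (∑ x, ∑ y, up H a i x * k x y * H y j + ∑ x, ∑ y, H i x * k x y * up H a y j))

theorem dvG_con [CharZero 𝕜] (s : 𝕜) {H k : M2 ι 𝕜} {p π : M3 ι 𝕜} (hH : Sy2 H) (hk : Sy2 k)
    (hp : Sy3 p) (hπ : Sy3 π) (c : ι) :
    dvG s H k (p c) (π c) = con (s • H) (dchr H p k π) c + con (vG s H k) (chr H p) c := by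
  have e0 : dchr H p k π = chr H π - chr (up H k) p := rfl
  have e : (Matrix.of (s • H) : Matrix ι ι 𝕜) = s • Matrix.of H := rfl
  have e1 : dvG s H k (p c) (π c) =
      (((1 / 2) * (Matrix.of H * Matrix.of (p c)).trace) • Matrix.of (vG s H k) +
      s • (((1 / 2) * ((Matrix.of H * Matrix.of (π c)).trace -
        (Matrix.of (up H (p c)) * Matrix.of k).trace)) • Matrix.of H -
        ((1 / 2) * (Matrix.of H * Matrix.of k).trace) • Matrix.of (up H (p c)) -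
        Matrix.of (up H (π c)) + (Matrix.of (up H (p c)) * Matrix.of k * Matrix.of H +
        Matrix.of H * Matrix.of k * Matrix.of (up H (p c)))) : Matrix ι ι 𝕜) := by
    funext i j
    simp only [dvG, tr2_eq _ hk, tr2_eq _ (hp c), tr2_eq _ (hπ c), Matrix.smul_apply,
      Matrix.sub_apply, Matrix.add_apply, Matrix.of_apply, smul_eq_mul, Matrix.mul_apply, sum_mul]
    rw [sum_comm (f := fun x y => up H (p c) i x * k x y * H y j),
      sum_comm (f := fun x y => H i x * k x y * up H (p c) y j)]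
  have u1 : ∀ a : M2 ι 𝕜, (Matrix.of (up H a) : Matrix ι ι 𝕜) =
      Matrix.of H * Matrix.of a * Matrix.of H := fun a => up_eq H a
  have u2 : (Matrix.of (vG s H k) : Matrix ι ι 𝕜) = s • (((1 / 2) * (Matrix.of H * Matrix.of k).trace) • Matrix.of H -
      Matrix.of H * Matrix.of k * Matrix.of H) := vG_eq s H hk
  have t1 : (Matrix.of H * Matrix.of (p c) * Matrix.of H * Matrix.of k).trace =
      (Matrix.of H * Matrix.of k * Matrix.of H * Matrix.of (p c) : Matrix ι ι 𝕜).trace := by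
    rw [Matrix.mul_assoc (Matrix.of H * Matrix.of (p c)), Matrix.trace_mul_comm,
      ← Matrix.mul_assoc]
  rw [e1, e0, con_sub, con_chr _ _ hp, con_chr _ _ hp, con_chr _ _ hπ,
    trace_half (A := lowM p c) hH.tp, trace_half (A := lowM π c) hH.tp,
    trace_half (A := lowM p c) (up_sy hH hk).tp, lowM_add hp, lowM_add hπ]
  simp only [u1, u2, e, t1]
  rw [← lowM_add hp, ← lowM_add hπ]
  generalize (Matrix.of H * (lowM p c + (lowM p c).transpose)).trace = x1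
  generalize (Matrix.of H * (lowM π c + (lowM π c).transpose)).trace = x2
  generalize (Matrix.of H * Matrix.of k * Matrix.of H *
    (lowM p c + (lowM p c).transpose)).trace = x3
  generalize (Matrix.of H * Matrix.of k).trace = x4
  change _ = (_ - _ + _ : Matrix ι ι 𝕜)
  simp only [Matrix.transpose_mul, hH.tp, hk.tp, Matrix.mul_add, Matrix.add_mul, Matrix.mul_sub,
    Matrix.sub_mul, Matrix.mul_smul, Matrix.smul_mul, Matrix.mul_assoc]
  module

end Crest.Agent.N207.Lg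

end
end

-- ▼ part N207/Lg/Alg2
section

/-!
# Row 207 (helper54): index algebra for the Lagrangian, part 2: first variation, covariance
-/

set_option autoImplicit false
set_option linter.unusedSectionVars false

open Finset

noncomputable section

namespace Crest.Agent.N207.Lg

variable {ι 𝕜 : Type*} [Fintype ι] [Field 𝕜]

/-- `H` is the inverse of `g` -/
structure Iv (g H : M2 ι 𝕜) : Prop where
  l : ∀ (v : ι → 𝕜) i, ∑ l, H i l * ∑ m, g l m * v m = v i
  r : ∀ (v : ι → 𝕜) i, ∑ l, g i l * ∑ m, H l m * v m = v i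

theorem low_bar [CharZero 𝕜] {k : M2 ι 𝕜} (π : M3 ι 𝕜) {β : M3 ι 𝕜} (hk : Sy2 k) (hβ : Sy3 β)
    (m i j : ι) : low (bar k π β) m i j = low π m i j - ∑ l, k m l * β l i j := by
  have h1 : ∑ l, β l i j * k l m = ∑ l, k m l * β l i j :=
    sum_congr rfl fun l _ => by rw [hk l m]; ring
  have h2 : ∑ l, β l j i * k l m = ∑ l, k m l * β l i j :=
    sum_congr rfl fun l _ => by rw [hk l m, hβ l j i]; ring
  have h3 : ∑ l, β l i m * k j l = ∑ l, β l m j * k i l - ∑ l, β l m j * k i l +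
      ∑ l, β l m i * k l j := by
    rw [sub_self, zero_add]; exact sum_congr rfl fun l _ => by rw [hk l j, hβ l i m]
  have h4 : ∑ l, β l j m * k i l = ∑ l, β l m j * k i l :=
    sum_congr rfl fun l _ => by rw [hβ l j m]
  simp only [low, bar]
  rw [h1, h2, h3, h4]; ring

/-- `Γ(g) - β = chr H (∇̄ g)` -/
theorem chr_bar [CharZero 𝕜] {g H : M2 ι 𝕜} (p : M3 ι 𝕜) {β : M3 ι 𝕜} (hI : Iv g H) (hg : Sy2 g)
    (hβ : Sy3 β) : chr H (bar g p β) = chr H p - β := by
  funext a i j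
  simp only [chr, low_bar p hg hβ, Pi.sub_apply, mul_sub, sum_sub_distrib]
  rw [hI.l (fun l => β l i j) a]

theorem up_mul {g H : M2 ι 𝕜} (k : M2 ι 𝕜) (hI : Iv g H) (v : ι → 𝕜) (a : ι) :
    ∑ l, up H k a l * ∑ m, g l m * v m = ∑ b, H a b * ∑ m, k b m * v m := by
  have : ∀ l, up H k a l = ∑ y, (∑ x, H a x * k x y) * H y l := fun l => by
    simp only [up, sum_mul]; rw [sum_comm]
  have h2 : ∑ l, (∑ y, (∑ x, H a x * k x y) * H y l) * ∑ m, g l m * v m =
      ∑ y, (∑ x, H a x * k x y) * ∑ l, H y l * ∑ m, g l m * v m := by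
    generalize (fun y => ∑ x, H a x * k x y) = P at *
    simp only [sum_mul]
    rw [sum_comm]
    refine sum_congr rfl fun y _ => ?_
    rw [sum_comm]
    refine sum_congr rfl fun x _ => ?_
    rw [mul_sum]
    exact sum_congr rfl fun l _ => by ring
  simp only [this]
  rw [h2]
  simp only [hI.l]
  simp only [sum_mul, mul_sum]
  rw [sum_comm]
  exact sum_congr rfl fun x _ => sum_congr rfl fun y _ => by ring

theorem dchr_bar [CharZero 𝕜] {g H k : M2 ι 𝕜} (p π : M3 ι 𝕜) {β : M3 ι 𝕜} (hI : Iv g H)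
    (hg : Sy2 g) (hk : Sy2 k) (hβ : Sy3 β) :
    dchr H (bar g p β) k (bar k π β) = dchr H p k π := by
  funext a i j
  simp only [dchr, chr, low_bar p hg hβ, low_bar π hk hβ, mul_sub, sum_sub_distrib]
  rw [up_mul k hI (fun l => β l i j) a]; ring

theorem low_tr [CharZero 𝕜] {Y : M2 ι 𝕜} (T : M3 ι 𝕜) (hY : Sy2 Y) (m : ι) :
    ∑ c, ∑ l, Y c l * low T m c l = gv Y T m := by
  have h1 : ∑ c, ∑ l, Y c l * T l c m = ∑ c, ∑ l, Y c l * T c l m := by
    rw [sum_comm]; exact sum_congr rfl fun c _ => sum_congr rfl fun l _ => by rw [hY l c]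
  have h2 : ∀ c l, Y c l * low T m c l =
      (1 / 2) * (Y c l * T c l m) + (1 / 2) * (Y c l * T l c m) - (1 / 2) * (Y c l * T m c l) :=
    fun c l => by simp only [low]; ring
  simp only [h2, sum_sub_distrib, sum_add_distrib, ← mul_sum, gv, uT, vT, tr2]
  rw [h1]; ring

theorem chr_tr [CharZero 𝕜] (K : M2 ι 𝕜) {Y : M2 ι 𝕜} (T : M3 ι 𝕜) (hY : Sy2 Y)
    (j : ι) : ∑ c, ∑ l, chr K T j c l * Y c l = ∑ m, K j m * gv Y T m := by
  simp only [← low_tr T hY, chr, sum_mul, mul_sum]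
  perm3 c l m => (m, c, l); ring

theorem con_tr (X : M2 ι 𝕜) (Γ : M3 ι 𝕜) (j : ι) :
    ∑ c, con X Γ c c j = -∑ c, ∑ l, Γ j c l * X c l := by
  have h : ∑ c, ∑ l, Γ l l c * X c j = ∑ c, ∑ l, Γ c c l * X l j := sum_comm
  simp only [con, sum_mul, sum_sub_distrib]
  rw [h]; ring

theorem vG_def (s : 𝕜) (H k : M2 ι 𝕜) : vG s H k = s • (((1 / 2) * tr2 H k) • H - up H k) := rfl

theorem gv_smul (s : 𝕜) (X : M2 ι 𝕜) (T : M3 ι 𝕜) (m : ι) : gv (s • X) T m = s * gv X T m := by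
  simp only [gv, uT, vT, smul_tr2, Pi.smul_apply, smul_eq_mul, mul_assoc, ← mul_sum]; ring

theorem gv_sub (X Y : M2 ι 𝕜) (T : M3 ι 𝕜) (m : ι) : gv (X - Y) T m = gv X T m - gv Y T m := by
  simp only [gv, uT, vT, sub_tr2, Pi.sub_apply, sub_mul, sum_sub_distrib]; ring

theorem gv_vG (s : 𝕜) (H k : M2 ι 𝕜) (T : M3 ι 𝕜) (m : ι) :
    gv (vG s H k) T m = s * ((1 / 2) * tr2 H k * gv H T m - gv (up H k) T m) := by
  rw [vG_def, gv_smul, gv_sub, gv_smul]

theorem ip1_smul (s : 𝕜) (X : M2 ι 𝕜) (u v : ι → 𝕜) : ip1 (s • X) u v = s * ip1 X u v := by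
  simp only [ip1, Pi.smul_apply, smul_eq_mul, mul_assoc, ← mul_sum]

theorem ip1_sub (X Y : M2 ι 𝕜) (u v : ι → 𝕜) : ip1 (X - Y) u v = ip1 X u v - ip1 Y u v := by
  simp only [ip1, Pi.sub_apply, sub_mul, sum_sub_distrib]

theorem ip1_vG (s : 𝕜) (H k : M2 ι 𝕜) (u v : ι → 𝕜) :
    ip1 (vG s H k) u v = s * ((1 / 2) * tr2 H k * ip1 H u v - ip1 (up H k) u v) := by
  rw [vG_def, ip1_smul, ip1_sub, ip1_smul]

theorem ip1_comm {H : M2 ι 𝕜} (hH : Sy2 H) (u v : ι → 𝕜) : ip1 H u v = ip1 H v u := by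
  simp only [ip1]
  rw [sum_comm]
  exact sum_congr rfl fun a _ => sum_congr rfl fun b _ => by rw [hH a b]; ring

theorem ip1_eq (H : M2 ι 𝕜) (u v : ι → 𝕜) : ip1 H u v = ∑ j, (∑ m, H j m * v m) * u j := by
  simp only [ip1, sum_mul]
  exact sum_congr rfl fun a _ => sum_congr rfl fun b _ => by ring

theorem tr2_vG (s : 𝕜) (H k X : M2 ι 𝕜) :
    tr2 (vG s H k) X = s * ((1 / 2) * tr2 H k * tr2 H X - tr2 (up H k) X) := by
  rw [vG_def, smul_tr2, sub_tr2, smul_tr2]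

section Var

variable [CharZero 𝕜] {g H k : M2 ι 𝕜} {p π β : M3 ι 𝕜}

/-- `√g R = lag + div flux` on jets -/
theorem eh_jet (s : 𝕜) (dΓ dβ : M4 ι 𝕜) (hI : Iv g H) (hg : Sy2 g) (hH : Sy2 H) (hp : Sy3 p)
    (hβ : Sy3 β) :
    s * tr2 H (ricC (chr H p) dΓ) = lag s H (bar g p β) (ricC β dβ) +
      ∑ c, (fl (vG s H (p c)) (chr H (bar g p β)) c + s * fl H (dΓ c - dβ c) c) := by
  have hX : Sy2 (s • H) := fun i j => by simp only [Pi.smul_apply]; rw [hH i j]
  have h := palatini β 0 dΓ dβ hX (chr_sy H hp)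
  have h0 : ∀ c, fl (0 : M2 ι 𝕜) (chr H p - β) c = 0 := fun c => by simp [fl]
  simp only [h0, Pi.zero_apply, zero_add, smul_tr2, fl_smul, sum_const_zero, ← vG_con s hH hp] at h
  rw [lag, ell, chr_bar p hI hg hβ, h]; ring

/-- first variation of `lag` on jets -/
theorem dlag_jet (s : 𝕜) (dΓ dβ : M4 ι 𝕜) (hI : Iv g H) (hg : Sy2 g) (hH : Sy2 H) (hk : Sy2 k)
    (hp : Sy3 p) (hπ : Sy3 π) (hβ : Sy3 β) :
    dlag s H (bar g p β) (ricC β dβ) k (bar k π β) = tr2 (vG s H k) (ricC (chr H p) dΓ) -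
      ∑ c, (fl (dvG s H k (p c) (π c)) (chr H (bar g p β)) c +
        fl (vG s H k) (dΓ c - dβ c) c) := by
  have hX : Sy2 (s • H) := fun i j => by simp only [Pi.smul_apply]; rw [hH i j]
  have h := palatini β (con (s • H) (dchr H p k π)) dΓ dβ (vG_sy s hH hk) (chr_sy H hp)
  rw [fl_con _ hX (dchr_sy H k hp hπ)] at h
  simp only [← dvG_con s hH hk hp hπ, smul_tr2] at h
  rw [dlag, dchr_bar p π hI hg hk hβ, chr_bar p hI hg hβ, h]; ring

/-- first variation of `gau` on jets -/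
theorem dgau_jet (s : 𝕜) (hI : Iv g H) (hg : Sy2 g) (hH : Sy2 H) (hk : Sy2 k)
    (hp : Sy3 p) (hπ : Sy3 π) (hβ : Sy3 β) :
    dgau s H (bar g p β) k (bar k π β) =
      -(1 / 2) * ip1 (vG s H k) (gv H (bar g p β)) (gv H (bar g p β)) -
        tr2 (vG s H k) (fun i j => ∑ m, β m i j * gv H (bar g p β) m) -
        ∑ c, ∑ j, dvG s H k (p c) (π c) c j * gv H (bar g p β) j := by
  have hT := bar_sy β hg hp
  have hτ := bar_sy β hk hπ
  set T := bar g p β with hTd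
  set τ := bar k π β
  have hΓ : chr H p = chr H T + β := by rw [hTd, chr_bar p hI hg hβ]; abel
  have h1 : ∀ j, ∑ c, dvG s H k (p c) (π c) c j =
      -(s * (∑ m, H j m * gv H τ m - ∑ m, up H k j m * gv H T m)) -
        ∑ m, H j m * gv (vG s H k) T m - ∑ c, ∑ l, β j c l * vG s H k c l := fun j => by
    simp only [dvG_con s hH hk hp hπ, Pi.add_apply, sum_add_distrib, con_tr]
    rw [← dchr_bar p π hI hg hk hβ, hΓ, ← chr_tr H τ hH, ← chr_tr _ T hH,
      ← chr_tr H T (vG_sy s hH hk)]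
    simp only [dchr, Pi.add_apply, Pi.smul_apply, smul_eq_mul, add_mul, sub_mul, sum_add_distrib,
      sum_sub_distrib, mul_sub, mul_sum]
    have e : ∀ x y : 𝕜, x * (s * y) = s * (x * y) := fun x y => by ring
    simp only [e]
    ring
  have h2 : tr2 (vG s H k) (fun i j => ∑ m, β m i j * gv H T m) =
      ∑ j, (∑ c, ∑ l, β j c l * vG s H k c l) * gv H T j := by
    simp only [tr2, mul_sum, sum_mul]
    perm3 a b m => (m, a, b); ring
  have h3 : ip1 H (gv H T) (dgv H T k τ) =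
      ip1 H (gv H T) (gv H τ) - ip1 H (gv H T) (gv (up H k) T) := by
    simp only [ip1, dgv, mul_sub, sum_sub_distrib]
  have h4 : ∑ j, (∑ m, H j m * gv (vG s H k) T m) * gv H T j =
      s * ((1 / 2) * tr2 H k * ip1 H (gv H T) (gv H T) - ip1 H (gv H T) (gv (up H k) T)) := by
    rw [← ip1_eq]
    simp only [ip1, gv_vG]
    generalize tr2 H k = t
    simp only [mul_sub, sum_sub_distrib, mul_sum]
    congr 1 <;> exact sum_congr rfl fun a _ => sum_congr rfl fun b _ => by ring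
  rw [sum_comm]
  simp only [← sum_mul, h1]
  simp only [sub_mul, sum_sub_distrib, neg_mul, sum_neg_distrib, mul_assoc, ← mul_sum]
  rw [h2, h4, dgau, ip1_comm hH (dgv H T k τ), h3, ip1_vG, ← ip1_eq, ← ip1_eq]
  ring

end Var

end Crest.Agent.N207.Lg

end
end

-- ▼ part N207/Lg/Alg3
section

/-!
# Row 207 (helper54): index algebra for the Lagrangian, part 3: covariance, principal part
-/

set_option autoImplicit false
set_option linter.unusedSectionVars false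

open Finset

noncomputable section

namespace Crest.Agent.N207.Lg

variable {ι 𝕜 : Type*} [Fintype ι] [Field 𝕜]

/-- covariant derivative of a `(1,2)`-tensor -/
def covC (β C : M3 ι 𝕜) (dC : M4 ι 𝕜) : M4 ι 𝕜 := fun c k i j =>
  dC c k i j + ∑ m, β k c m * C m i j - ∑ m, β m c i * C k m j - ∑ m, β m c j * C k i m

/-- covariant derivative of a 3-tensor -/
def bar3 (T : M3 ι 𝕜) (dT : M4 ι 𝕜) (β : M3 ι 𝕜) : M4 ι 𝕜 := fun c d a b =>
  dT c d a b - ∑ m, β m c d * T m a b - ∑ m, β m c a * T d m b - ∑ m, β m c b * T d a m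

/-- curvature of a connection -/
def rie (β : M3 ι 𝕜) (dβ : M4 ι 𝕜) : M4 ι 𝕜 := fun l k i j =>
  dβ i l j k - dβ j l i k + ∑ a, (β l i a * β a j k - β l j a * β a i k)

/-- derivative of `bar g p β` -/
def dbar (g : M2 ι 𝕜) (p : M3 ι 𝕜) (q : M4 ι 𝕜) (β : M3 ι 𝕜) (dβ : M4 ι 𝕜) : M4 ι 𝕜 :=
  fun c d a b => q c d a b - ∑ m, (dβ c m d a * g m b + β m d a * p c m b) -
    ∑ m, (dβ c m d b * g a m + β m d b * p c a m)

/-- the curvature term of the reduced Ricci operator; `R m l k i = R^m_{lki}` of the background -/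
def cvJ (g H : M2 ι 𝕜) (R : M4 ι 𝕜) : M2 ι 𝕜 := fun i j =>
  (1 / 2) * ∑ k, ∑ l, ∑ m, H k l * (R m l k i * g m j + R m l k j * g m i)

theorem ricC_add {β C : M3 ι 𝕜} (dβ dC : M4 ι 𝕜) (hβ : Sy3 β) (hC : Sy3 C) :
    ricC (C + β) (dC + dβ) = ricC β dβ + ricC C (covC β C dC) := by
  funext i j
  have h1 : ∑ k, ∑ m, β m k j * C k i m = ∑ k, ∑ m, β m j k * C k m i :=
    sum_congr rfl fun k _ => sum_congr rfl fun m _ => by rw [hβ m k j, hC k i m]
  have h2 : ∑ k, ∑ m, β m k i * C k m j = ∑ k, ∑ l, C k j l * β l k i :=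
    sum_congr rfl fun k _ => sum_congr rfl fun m _ => by rw [hC k m j]; ring
  have h3 : ∑ k, ∑ m, β m j i * C k k m = ∑ k, ∑ l, C k k l * β l i j :=
    sum_congr rfl fun k _ => sum_congr rfl fun m _ => by rw [hβ m j i]; ring
  simp only [ricC, cc, covC, Pi.add_apply, add_mul, mul_add, sum_add_distrib, sum_sub_distrib]
  rw [h1, h2, h3]; ring

theorem up_bar {g H : M2 ι 𝕜} (p β : M3 ι 𝕜) (hI : Iv g H) (hg : Sy2 g) (hH : Sy2 H) (c i j : ι) :
    up H (bar g p β c) i j = up H (p c) i j - ∑ a, H i a * β j c a - ∑ b, β i c b * H b j := by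
  have h1 : ∑ a, ∑ b, H i a * (∑ m, β m c a * g m b) * H b j = ∑ a, H i a * β j c a :=
    sum_congr rfl fun a _ => by
      rw [← hI.l (fun m => β m c a) j, mul_sum]
      refine sum_congr rfl fun b _ => ?_
      rw [hH j b, mul_assoc, mul_comm (H b j)]
      congr 2
      exact sum_congr rfl fun m _ => by rw [hg m b]; ring
  have h2 : ∑ a, ∑ b, H i a * (∑ m, β m c b * g a m) * H b j = ∑ b, β i c b * H b j := by
    rw [sum_comm]
    refine sum_congr rfl fun b _ => ?_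
    rw [← hI.l (fun m => β m c b) i, sum_mul]
    refine sum_congr rfl fun a _ => ?_
    congr 2
    exact sum_congr rfl fun m _ => by ring
  simp only [up, bar, mul_sub, sub_mul, sum_sub_distrib]
  rw [h1, h2]

theorem low_bar3 [CharZero 𝕜] (T : M3 ι 𝕜) (dT : M4 ι 𝕜) (β : M3 ι 𝕜) (c l i j : ι) :
    low (bar3 T dT β c) l i j = low (dT c) l i j - ∑ m, β m c i * low T l m j -
      ∑ m, β m c j * low T l i m - ∑ m, β m c l * low T m i j := by
  have h : ∀ (x a b d : 𝕜), x * (1 / 2 * (a + b - d)) = 1 / 2 * (x * a) + 1 / 2 * (x * b) -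
      1 / 2 * (x * d) := fun x a b d => by ring
  simp only [low, bar3, h, sum_add_distrib, sum_sub_distrib, ← mul_sum]
  ring

/-- covariance of `dchr` -/
theorem covC_dchr [CharZero 𝕜] {g H : M2 ι 𝕜} (p T β : M3 ι 𝕜) (dT : M4 ι 𝕜) (hI : Iv g H)
    (hg : Sy2 g) (hH : Sy2 H) :
    covC β (chr H T) (fun c => dchr H T (p c) (dT c)) =
      fun c => dchr H T (bar g p β c) (bar3 T dT β c) := by
  funext c k i j
  have h1 : ∑ l, H k l * ∑ m, β m c i * low T l m j = ∑ m, β m c i * ∑ l, H k l * low T l m j := by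
    simp only [mul_sum]; rw [sum_comm]
    exact sum_congr rfl fun _ _ => sum_congr rfl fun _ _ => by ring
  have h2 : ∑ l, H k l * ∑ m, β m c j * low T l i m = ∑ m, β m c j * ∑ l, H k l * low T l i m := by
    simp only [mul_sum]; rw [sum_comm]
    exact sum_congr rfl fun _ _ => sum_congr rfl fun _ _ => by ring
  have h3 : ∑ l, H k l * ∑ m, β m c l * low T m i j =
      ∑ l, (∑ a, H k a * β l c a) * low T l i j := by
    simp only [mul_sum, sum_mul]; rw [sum_comm]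
    exact sum_congr rfl fun _ _ => sum_congr rfl fun _ _ => by ring
  have h4 : ∑ l, (∑ b, β k c b * H b l) * low T l i j =
      ∑ m, β k c m * ∑ l, H m l * low T l i j := by
    simp only [mul_sum, sum_mul]; rw [sum_comm]
    exact sum_congr rfl fun _ _ => sum_congr rfl fun _ _ => by ring
  simp only [covC, dchr, chr, low_bar3, up_bar p β hI hg hH, mul_sub, sub_mul, sum_sub_distrib]
  rw [h1, h2, h3, h4]; ring

theorem Sy3.ap {T : M3 ι 𝕜} (hT : Sy3 T) (c : ι) : Sy2 (T c) := hT c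

/-- covariance of `dgv` -/
theorem cov_dgv [CharZero 𝕜] {g H : M2 ι 𝕜} {p : M3 ι 𝕜} (T β : M3 ι 𝕜) (dT : M4 ι 𝕜)
    (hI : Iv g H) (hg : Sy2 g) (hH : Sy2 H) (hp : Sy3 p) (c j : ι) :
    dgv H T (p c) (dT c) j - ∑ m, β m c j * gv H T m =
      dgv H T (bar g p β c) (bar3 T dT β c) j := by
  have h1 : ∑ a, ∑ b, H a b * ∑ m, β m c a * low T j m b =
      ∑ a, ∑ b, (∑ x, β a c x * H x b) * low T j a b := by
    simp only [mul_sum, sum_mul]
    perm3 a b m => (m, b, a); ring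
  have h2 : ∑ a, ∑ b, H a b * ∑ m, β m c b * low T j a m =
      ∑ a, ∑ b, (∑ x, H a x * β b c x) * low T j a b := by
    simp only [mul_sum, sum_mul]
    perm3 a b m => (a, m, b); ring
  have h3 : ∑ a, ∑ b, H a b * ∑ m, β m c j * low T m a b =
      ∑ m, β m c j * ∑ a, ∑ b, H a b * low T m a b := by
    simp only [mul_sum]
    perm3 a b m => (m, a, b); ring
  simp only [dgv, ← low_tr _ hH, ← low_tr _ (up_sy hH (hp.ap c)),
    ← low_tr _ (up_sy hH ((bar_sy β hg hp).ap c)), low_bar3, up_bar p β hI hg hH, mul_sub, sub_mul,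
    sum_sub_distrib]
  rw [h1, h2, h3]; ring

/-- Ricci identity for the second covariant derivative of `g` -/
theorem bar3_comm (g : M2 ι 𝕜) (p : M3 ι 𝕜) {q : M4 ι 𝕜} {β : M3 ι 𝕜} (dβ : M4 ι 𝕜)
    (hq : ∀ c d a b, q c d a b = q d c a b) (hβ : Sy3 β) (c d a b : ι) :
    bar3 (bar g p β) (dbar g p q β dβ) β c d a b - bar3 (bar g p β) (dbar g p q β dβ) β d c a b =
      -∑ m, rie β dβ m a c d * g m b - ∑ m, rie β dβ m b c d * g a m := by
  have h1 : ∀ c d, ∑ m, ∑ x, β m c a * (β x d m * g x b) = ∑ m, ∑ x, β m d x * β x c a * g m b :=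
    fun c d => by
      rw [sum_comm]; exact sum_congr rfl fun _ _ => sum_congr rfl fun _ _ => by ring
  have h2 : ∀ c d, ∑ m, ∑ x, β m c b * (β x d m * g a x) = ∑ m, ∑ x, β m d x * β x c b * g a m :=
    fun c d => by
      rw [sum_comm]; exact sum_congr rfl fun _ _ => sum_congr rfl fun _ _ => by ring
  have h3 : ∀ c d, ∑ m, ∑ x, β m c b * (β x d a * g x m) = ∑ m, ∑ x, β m d a * (β x c b * g m x) :=
    fun c d => by
      rw [sum_comm]; exact sum_congr rfl fun _ _ => sum_congr rfl fun _ _ => by ring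
  have h4 : ∀ m, β m d c = β m c d := fun m => hβ m d c
  simp only [bar3, bar, dbar, rie, mul_sub, sub_mul, add_mul, sum_mul, mul_sum, sum_add_distrib,
    sum_sub_distrib, h4]
  rw [hq d c a b, h1 c d, h1 d c, h2 c d, h2 d c, h3 c d, h3 d c]; ring

theorem ricC_eq_rie {β : M3 ι 𝕜} {dβ : M4 ι 𝕜} (hβ : Sy3 β) (hd : ∀ c, Sy3 (dβ c)) (i j : ι) :
    ricC β dβ i j = ∑ k, rie β dβ k i k j := by
  have h1 : ∑ k, dβ k k j i = ∑ k, dβ k k i j := sum_congr rfl fun k _ => hd k k j i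
  have h2 : ∑ k, ∑ a, β k k a * β a j i = ∑ k, ∑ a, β k k a * β a i j :=
    sum_congr rfl fun k _ => sum_congr rfl fun a _ => by rw [hβ a j i]
  simp only [ricC, cc, rie, sum_add_distrib, sum_sub_distrib]
  rw [h1, h2]; ring

theorem rie_tr {β : M3 ι 𝕜} {dβ : M4 ι 𝕜} (hβ : Sy3 β) (hd : ∀ c, Sy3 (dβ c)) (i j : ι) :
    ∑ k, rie β dβ k k i j = ricC β dβ i j - ricC β dβ j i := by
  have h1 : ∑ k, dβ k k j i = ∑ k, dβ k k i j := sum_congr rfl fun k _ => hd k k j i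
  have h2 : ∑ k, ∑ a, β k k a * β a j i = ∑ k, ∑ a, β k k a * β a i j :=
    sum_congr rfl fun k _ => sum_congr rfl fun a _ => by rw [hβ a j i]
  have h3 : ∀ i j, ∑ k, dβ i k j k = ∑ k, dβ i k k j := fun i j =>
    sum_congr rfl fun k _ => hd i k j k
  have h4 : ∑ k, ∑ a, β k i a * β a j k = ∑ k, ∑ a, β k j a * β a i k := by
    rw [sum_comm]; exact sum_congr rfl fun _ _ => sum_congr rfl fun _ _ => by ring
  have h5 : ∑ k, ∑ l, β k i l * β l k j = ∑ k, ∑ l, β k j l * β l k i := by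
    rw [sum_comm]
    exact sum_congr rfl fun k _ => sum_congr rfl fun l _ => by rw [hβ l i k, hβ k l j]; ring
  simp only [ricC, cc, rie, sum_add_distrib, sum_sub_distrib]
  rw [h1, h2, h3 i j, h3 j i, h4, h5]; ring

/-- the part of `redJ` that is linear in `TT` -/
theorem redJ_eq [CharZero 𝕜] {H : M2 ι 𝕜} (T : M3 ι 𝕜) {TT : M4 ι 𝕜} (hH : Sy2 H)
    (hTT : ∀ c, Sy3 (TT c)) (i j : ι) :
    redJ H T TT i j = -(1 / 2) * lapJ H TT i j + qd H T i j +
      (1 / 2) * ∑ k, ∑ l, H k l * (TT k i l j - TT i k l j) +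
      (1 / 2) * ∑ k, ∑ l, H k l * (TT k j l i - TT j k l i) +
      (1 / 4) * ∑ k, ∑ l, H k l * (TT i j k l - TT j i k l) := by
  have h : ∀ (x a b d : 𝕜), x * (1 / 2 * (a + b - d)) = 1 / 2 * (x * a) + 1 / 2 * (x * b) -
      1 / 2 * (x * d) := fun x a b d => by ring
  have h1 : ∑ k, ∑ l, H k l * TT k i j l = ∑ k, ∑ l, H k l * TT k i l j :=
    sum_congr rfl fun k _ => sum_congr rfl fun l _ => by rw [hTT k i j l]
  have h2 : ∑ k, ∑ l, H k l * TT k j i l = ∑ k, ∑ l, H k l * TT k j l i :=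
    sum_congr rfl fun k _ => sum_congr rfl fun l _ => by rw [hTT k j i l]
  have h3 : ∑ k, ∑ l, H k l * TT j k i l = ∑ k, ∑ l, H k l * TT j l k i := by
    rw [sum_comm]
    exact sum_congr rfl fun k _ => sum_congr rfl fun l _ => by rw [hTT j l i k, hH l k]
  have e1 : ∑ k, chr H (TT k) k i j = (1 / 2) * ∑ k, ∑ l, H k l * TT k i l j +
      (1 / 2) * ∑ k, ∑ l, H k l * TT k j l i - (1 / 2) * lapJ H TT i j := by
    simp only [chr, low, lapJ, h, sum_add_distrib, sum_sub_distrib, ← mul_sum]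
    rw [h1, h2]
  have e2 : ∑ k, chr H (TT j) k k i = (1 / 2) * ∑ k, ∑ l, H k l * TT j i k l := by
    simp only [chr, low, h, sum_add_distrib, sum_sub_distrib, ← mul_sum]
    rw [h3]; ring
  have z1 : ∀ k a b, chr H (0 : M3 ι 𝕜) k a b = 0 := fun k a b => by simp [chr, low]
  have z2 : ∀ a, gv H (0 : M3 ι 𝕜) a = 0 := fun a => by simp [gv, uT, vT, tr2]
  simp only [qd, redJ, ricJ, ricC, dchr, dgv, sum_sub_distrib, Pi.zero_apply, z1, z2, e1, e2,
    mul_sub]
  simp only [gv, uT, vT, tr2, sum_const_zero]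
  ring

/-- the reduced Ricci operator has scalar principal part -/
theorem red_jet [CharZero 𝕜] {g H : M2 ι 𝕜} {p : M3 ι 𝕜} {q : M4 ι 𝕜} {β : M3 ι 𝕜}
    {dβ : M4 ι 𝕜} (hI : Iv g H) (hg : Sy2 g) (hH : Sy2 H)
    (hq : ∀ c d a b, q c d a b = q d c a b) (hβ : Sy3 β) (hd : ∀ c, Sy3 (dβ c))
    (hTT : ∀ c, Sy3 (bar3 (bar g p β) (dbar g p q β dβ) β c)) (i j : ι) :
    ricC β dβ i j + redJ H (bar g p β) (bar3 (bar g p β) (dbar g p q β dβ) β) i j =
      -(1 / 2) * lapJ H (bar3 (bar g p β) (dbar g p q β dβ) β) i j + qd H (bar g p β) i j -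
        cvJ g H (rie β dβ) i j := by
  have c1 : ∀ (f : ι → ι → 𝕜), ∑ k, ∑ l, H k l * ∑ m, f m k * g l m = ∑ k, f k k := fun f =>
    sum_congr rfl fun k _ => by
      rw [← hI.l (fun m => f m k) k]
      exact sum_congr rfl fun l _ => by
        congr 1; exact sum_congr rfl fun m _ => by ring
  have c2 : ∀ (f : ι → ι → 𝕜), ∑ k, ∑ l, H k l * ∑ m, f m k * g m l = ∑ k, f k k := fun f => by
    rw [← c1 f]
    exact sum_congr rfl fun k _ => sum_congr rfl fun l _ => by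
      congr 1; exact sum_congr rfl fun m _ => by rw [hg m l]
  have c3 : ∀ (f : ι → ι → 𝕜), ∑ k, ∑ l, H k l * ∑ m, f m l * g k m = ∑ k, f k k := fun f => by
    rw [← c1 f, sum_comm]
    exact sum_congr rfl fun k _ => sum_congr rfl fun l _ => by rw [hH l k]
  rw [redJ_eq _ hH hTT]
  simp only [bar3_comm g p dβ hq hβ, mul_sub, mul_neg, sum_sub_distrib, sum_neg_distrib]
  rw [c1 (fun m k => rie β dβ m j k i), c1 (fun m k => rie β dβ m i k j),
    c2 (fun m k => rie β dβ m k i j), c3 (fun m l => rie β dβ m l i j),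
    ← ricC_eq_rie hβ hd, ← ricC_eq_rie hβ hd, rie_tr hβ hd]
  simp only [cvJ, mul_add, sum_add_distrib, ← mul_sum]
  ring

end Crest.Agent.N207.Lg

end
end

-- ▼ part N207/Lg/Cal
section

/-!
# Row 207 (helper54): derivatives of the jet polynomials along curves (real or complex)
-/

set_option autoImplicit false
set_option linter.unusedSectionVars false

open Finset Filter
open scoped Topology

noncomputable section

namespace Crest.Agent.N207.Lg

variable {ι 𝕜 : Type*} [Fintype ι] [NontriviallyNormedField 𝕜] {J : Set 𝕜} {t : 𝕜}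

/-- derivative of a curve of 1-arrays -/
def HD1 (J : Set 𝕜) (t : 𝕜) (u : 𝕜 → ι → 𝕜) (u' : ι → 𝕜) : Prop :=
  ∀ i, HasDerivWithinAt (fun r => u r i) (u' i) J t
/-- derivative of a curve of 2-arrays -/
def HD2 (J : Set 𝕜) (t : 𝕜) (u : 𝕜 → M2 ι 𝕜) (u' : M2 ι 𝕜) : Prop :=
  ∀ i j, HasDerivWithinAt (fun r => u r i j) (u' i j) J t
/-- derivative of a curve of 3-arrays -/
def HD3 (J : Set 𝕜) (t : 𝕜) (u : 𝕜 → M3 ι 𝕜) (u' : M3 ι 𝕜) : Prop :=
  ∀ i j k, HasDerivWithinAt (fun r => u r i j k) (u' i j k) J t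

variable {X Y H K : 𝕜 → M2 ι 𝕜} {X' Y' H' K' a b : M2 ι 𝕜} {T C D : 𝕜 → M3 ι 𝕜}
  {T' C' D' : M3 ι 𝕜} {u v : 𝕜 → ι → 𝕜} {u' v' : ι → 𝕜} {s : 𝕜 → 𝕜}

theorem hd2_const (A : M2 ι 𝕜) : HD2 J t (fun _ => A) 0 := fun _ _ => hasDerivWithinAt_const _ _ _


theorem hd_tr2 (hX : HD2 J t X X') (hY : HD2 J t Y Y') :
    HasDerivWithinAt (fun r => tr2 (X r) (Y r)) (tr2 X' (Y t) + tr2 (X t) Y') J t := by
  simp only [tr2, ← sum_add_distrib]
  exact .fun_sum fun i _ => .fun_sum fun j _ => (hX i j).fun_mul (hY i j)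

theorem hd_low (hT : HD3 J t T T') : HD3 J t (fun r => low (T r)) (low T') := fun m i j =>
  (((hT i j m).fun_add (hT j i m)).fun_sub (hT m i j)).const_mul _

theorem hd_chr (hH : HD2 J t H H') (hT : HD3 J t T T') :
    HD3 J t (fun r => chr (H r) (T r)) (chr H' (T t) + chr (H t) T') := fun k i j => by
  simp only [chr, Pi.add_apply, ← sum_add_distrib]
  exact .fun_sum fun l _ => (hH k l).fun_mul (hd_low hT l i j)

theorem hd_gv (hH : HD2 J t H H') (hT : HD3 J t T T') :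
    HD1 J t (fun r => gv (H r) (T r)) (gv H' (T t) + gv (H t) T') := fun j => by
  have h1 : HasDerivWithinAt (fun r => uT (H r) (T r) j) (uT H' (T t) j + uT (H t) T' j) J t := by
    simp only [uT, ← sum_add_distrib]
    exact .fun_sum fun c _ => .fun_sum fun a _ => (hH c a).fun_mul (hT c a j)
  have h2 := hd_tr2 hH (Y := fun r => T r j) (hT j)
  refine (h1.fun_sub (h2.const_mul (1 / 2))).congr_deriv ?_
  simp only [gv, vT, Pi.add_apply]; ring

theorem hd_cc (hC : HD3 J t C C') (hD : HD3 J t D D') :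
    HD2 J t (fun r => cc (C r) (D r)) (cc C' (D t) + cc (C t) D') := fun i j => by
  refine ((HasDerivWithinAt.fun_sum fun k _ => HasDerivWithinAt.fun_sum fun l _ =>
    (hC k j l).fun_mul (hD l k i)).fun_sub (HasDerivWithinAt.fun_sum fun k _ =>
      HasDerivWithinAt.fun_sum fun l _ => (hC k k l).fun_mul (hD l i j))).congr_deriv ?_
  simp only [cc, Pi.add_apply, sum_add_distrib]; ring

theorem hd_fl (hX : HD2 J t X X') (hC : HD3 J t C C') :
    HD1 J t (fun r => fl (X r) (C r)) (fl X' (C t) + fl (X t) C') := fun c => by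
  refine ((HasDerivWithinAt.fun_sum fun i _ => HasDerivWithinAt.fun_sum fun j _ =>
    (hX i j).fun_mul (hC c i j)).fun_sub (HasDerivWithinAt.fun_sum fun i _ =>
      HasDerivWithinAt.fun_sum fun j _ => (hX i c).fun_mul (hC j j i))).congr_deriv ?_
  simp only [fl, Pi.add_apply, sum_add_distrib]; ring

theorem hd_ip1 (hX : HD2 J t X X') (hu : HD1 J t u u') (hv : HD1 J t v v') :
    HasDerivWithinAt (fun r => ip1 (X r) (u r) (v r))
      (ip1 X' (u t) (v t) + (ip1 (X t) u' (v t) + ip1 (X t) (u t) v')) J t := by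
  refine (HasDerivWithinAt.fun_sum fun i _ => HasDerivWithinAt.fun_sum fun j _ =>
    (hX i j).fun_mul ((hu i).fun_mul (hv j))).congr_deriv ?_
  simp only [ip1, mul_add, sum_add_distrib]

theorem hd_up (hH : HD2 J t H H') (hK : HD2 J t K K') :
    HD2 J t (fun r => up (H r) (K r)) fun i j => ∑ x, ∑ y, H' i x * K t x y * H t y j +
      up (H t) K' i j + ∑ x, ∑ y, H t i x * K t x y * H' y j := fun i j => by
  refine (HasDerivWithinAt.fun_sum fun x _ => HasDerivWithinAt.fun_sum fun y _ =>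
    ((hH i x).fun_mul (hK x y)).fun_mul (hH y j)).congr_deriv ?_
  simp only [up, add_mul, sum_add_distrib]


theorem chr_neg (A : M2 ι 𝕜) (T : M3 ι 𝕜) : chr (-A) T = -chr A T := by
  funext k i j; simp only [chr, Pi.neg_apply, neg_mul, sum_neg_distrib]

theorem gv_neg (A : M2 ι 𝕜) (T : M3 ι 𝕜) : gv (-A) T = -gv A T := by
  funext j
  simp only [gv, uT, vT, tr2, Pi.neg_apply, neg_mul, sum_neg_distrib]; ring

theorem neg_tr2 (A B : M2 ι 𝕜) : tr2 (-A) B = -tr2 A B := by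
  simp only [tr2, Pi.neg_apply, neg_mul, sum_neg_distrib]

theorem hd_dchr (hH : HD2 J t H (-up (H t) a)) (hT : HD3 J t T T') :
    HD3 J t (fun r => chr (H r) (T r)) (dchr (H t) (T t) a T') := fun k i j =>
  (hd_chr hH hT k i j).congr_deriv (by simp only [chr_neg, dchr, Pi.add_apply, Pi.neg_apply]; ring)

theorem hd_dgv (hH : HD2 J t H (-up (H t) a)) (hT : HD3 J t T T') :
    HD1 J t (fun r => gv (H r) (T r)) (dgv (H t) (T t) a T') := fun j =>
  (hd_gv hH hT j).congr_deriv (by simp only [gv_neg, dgv, Pi.add_apply, Pi.neg_apply]; ring)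

theorem hd_sH (hs : HasDerivWithinAt s ((1 / 2) * s t * tr2 (H t) a) J t)
    (hH : HD2 J t H (-up (H t) a)) : HD2 J t (fun r => s r • H r) (vG (s t) (H t) a) := fun i j =>
  (hs.fun_mul (hH i j)).congr_deriv (by simp only [vG, Pi.neg_apply]; ring)

theorem hd_vG (hs : HasDerivWithinAt s ((1 / 2) * s t * tr2 (H t) a) J t)
    (hH : HD2 J t H (-up (H t) a)) (hK : HD2 J t K b) :
    HD2 J t (fun r => vG (s r) (H r) (K r)) (dvG (s t) (H t) (K t) a b) := fun i j => by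
  refine (hs.fun_mul ((((hd_tr2 hH hK).const_mul (1 / 2)).fun_mul (hH i j)).fun_sub
    (hd_up hH hK i j))).congr_deriv ?_
  simp only [dvG, vG, neg_tr2, Pi.neg_apply, neg_mul, mul_neg, sum_neg_distrib]; ring

theorem hd_lag (ρ : M2 ι 𝕜) (hs : HasDerivWithinAt s ((1 / 2) * s t * tr2 (H t) a) J t)
    (hH : HD2 J t H (-up (H t) a)) (hT : HD3 J t T T') :
    HasDerivWithinAt (fun r => lag (s r) (H r) (T r) ρ) (dlag (s t) (H t) (T t) ρ a T') J t := by
  have h1 := hd_sH hs hH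
  have h2 := hd_dchr hH hT
  have h := (hd_tr2 h1 (hd2_const ρ)).fun_add (hd_tr2 h1 (hd_cc h2 h2))
  simp only [smul_tr2, ← mul_add] at h
  refine h.congr_deriv ?_
  have z : tr2 (H t) 0 = 0 := by simp [tr2]
  simp only [dlag, tr2_add, z]; ring

theorem hd_gau (hs : HasDerivWithinAt s ((1 / 2) * s t * tr2 (H t) a) J t)
    (hH : HD2 J t H (-up (H t) a)) (hT : HD3 J t T T') :
    HasDerivWithinAt (fun r => gau (s r) (H r) (T r)) (dgau (s t) (H t) (T t) a T') J t := by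
  have h2 := hd_dgv hH hT
  have h := (hd_ip1 (hd_sH hs hH) h2 h2).const_mul (1 / 2)
  simp only [ip1_smul, ← mul_assoc] at h
  refine h.congr_deriv ?_
  simp only [dgau]; ring

theorem hd_fgf (ρ : M2 ι 𝕜) (hs : HasDerivWithinAt s ((1 / 2) * s t * tr2 (H t) a) J t)
    (hH : HD2 J t H (-up (H t) a)) (hT : HD3 J t T T') :
    HasDerivWithinAt (fun r => fgf (s r) (H r) (T r) ρ) (dfgf (s t) (H t) (T t) ρ a T') J t :=
  (hd_lag ρ hs hH hT).fun_sub (hd_gau hs hH hT)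

section Det

variable [DecidableEq ι] {A : 𝕜 → Matrix ι ι 𝕜}

/-- Jacobi's formula -/
theorem hd_det (hA : HD2 J t A a) :
    HasDerivWithinAt (fun r => (A r).det) (∑ i, ∑ j, (A t).adjugate i j * a j i) J t := by
  have e : ∀ (B : Matrix ι ι 𝕜) (i : ι) (w : ι → 𝕜),
      ∑ j, B.adjugate i j * w j = (B.updateCol i w).det := fun B i w => by
    rw [← Matrix.cramer_apply, Matrix.cramer_eq_adjugate_mulVec]; rfl
  simp only [Matrix.det_apply']
  refine (HasDerivWithinAt.fun_sum fun σ _ =>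
    (HasDerivWithinAt.fun_finsetProd fun i _ => hA (σ i) i).const_mul _).congr_deriv ?_
  simp only [e (A t) _ (fun j => a j _), Matrix.det_apply', smul_eq_mul]
  rw [sum_comm]
  refine sum_congr rfl fun σ _ => ?_
  rw [mul_sum]
  refine sum_congr rfl fun i _ => ?_
  congr 1
  rw [← mul_prod_erase univ _ (mem_univ i)]
  simp only [Matrix.updateCol_self]
  rw [mul_comm]
  congr 1
  refine prod_congr rfl fun j hj => ?_
  rw [Matrix.updateCol_ne (ne_of_mem_erase hj)]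

theorem hd_det' (hA : HD2 J t A a) (ha : Sy2 a) (hd : (A t).det ≠ 0) :
    HasDerivWithinAt (fun r => (A r).det) ((A t).det * tr2 (fun i j => (A t)⁻¹ i j) a) J t := by
  refine (hd_det hA).congr_deriv ?_
  simp only [tr2, mul_sum, Matrix.inv_def, Matrix.smul_apply, smul_eq_mul, Ring.inverse_eq_inv']
  refine sum_congr rfl fun i _ => sum_congr rfl fun j _ => ?_
  rw [ha j i]; field_simp

theorem hd_inv (hA : HD2 J t A a) (hd : (A t).det ≠ 0) :
    HD2 J t (fun r i j => (A r)⁻¹ i j) (-up (fun i j => (A t)⁻¹ i j) a) := by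
  have hc : ContinuousWithinAt (fun r => (A r).det) J t := (hd_det hA).continuousWithinAt
  have hev : ∀ᶠ r in 𝓝[J] t, (A r).det ≠ 0 := hc.eventually_ne hd
  -- `(A r)⁻¹ = H - H (A r - A t) (A r)⁻¹`
  have hcont : ∀ i j, ContinuousWithinAt (fun r => (A r)⁻¹ i j) J t := fun i j => by
    have e : (fun r => (A r)⁻¹ i j) = fun r => ((A r).det)⁻¹ *
        ((A r).updateRow j (Pi.single i 1)).det := by
      funext r
      simp only [Matrix.inv_def, Matrix.smul_apply, smul_eq_mul, Ring.inverse_eq_inv',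
        Matrix.adjugate_apply]
    rw [e]
    refine (hc.inv₀ hd).mul (hd_det (A := fun r => (A r).updateRow j (Pi.single i 1))
      (a := Matrix.updateRow (Matrix.of a) j 0) fun x y => ?_).continuousWithinAt
    by_cases hx : x = j
    · subst hx; simpa using hasDerivWithinAt_const _ _ _
    · simpa [Matrix.updateRow_ne hx] using hA x y
  intro i j
  have e1 : ∀ r, (A r).det ≠ 0 → (A r)⁻¹ i j =
      (A t)⁻¹ i j - ∑ x, ∑ y, (A t)⁻¹ i x * ((A r x y - A t x y) * (A r)⁻¹ y j) := fun r hr => by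
    have h1 : (A t)⁻¹ * ((A r - A t) * (A r)⁻¹) = (A t)⁻¹ - (A r)⁻¹ := by
      rw [Matrix.sub_mul, Matrix.mul_nonsing_inv _ (isUnit_iff_ne_zero.2 hr), Matrix.mul_sub,
        Matrix.mul_one, ← Matrix.mul_assoc, Matrix.nonsing_inv_mul _ (isUnit_iff_ne_zero.2 hd),
        Matrix.one_mul]
    have h2 := congrFun (congrFun h1 i) j
    simp only [Matrix.mul_apply, Matrix.sub_apply, mul_sum] at h2
    rw [h2]; ring
  have h3 : ∀ x y, HasDerivWithinAt (fun r => (A r x y - A t x y) * (A r)⁻¹ y j)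
      (a x y * (A t)⁻¹ y j) J t := fun x y => by
    have h4 := hA x y
    rw [hasDerivWithinAt_iff_tendsto_slope] at h4 ⊢
    refine (h4.mul ((hcont y j).tendsto.mono_left (nhdsWithin_mono _ Set.sdiff_subset))).congr
      fun r => ?_
    simp only [slope_def_field, sub_self, zero_mul, sub_zero]; ring
  refine ((HasDerivWithinAt.fun_sum fun x _ => HasDerivWithinAt.fun_sum fun y _ =>
    (h3 x y).const_mul ((A t)⁻¹ i x)).const_sub ((A t)⁻¹ i j)).congr_of_eventuallyEq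
      (hev.mono e1) (e1 t hd) |>.congr_deriv ?_
  simp only [up, Pi.neg_apply, mul_assoc]

end Det

end Crest.Agent.N207.Lg

end
end

-- ▼ part N207/Lg/Sm
section

/-!
# Row 207 (helper54): smoothness of the jet polynomials (`m = ω`: analyticity)
-/

set_option autoImplicit false
set_option linter.unusedSectionVars false

noncomputable section

namespace Crest.Agent.N207.Lg

variable {ι 𝕜 P : Type*} [Fintype ι] [NontriviallyNormedField 𝕜] [NormedAddCommGroup P]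
  [NormedSpace 𝕜 P] {x : P} {m : WithTop ℕ∞} {S : Set P}
  {s : P → 𝕜} {u v : P → ι → 𝕜} {g H k ρ : P → M2 ι 𝕜} {T τ β : P → M3 ι 𝕜} {Q R : P → M4 ι 𝕜}

@[fun_prop] theorem dA_low (hT : DifferentiableAt 𝕜 T x) :
    DifferentiableAt 𝕜 (fun z => low (T z)) x := by
  unfold low; fun_prop

@[fun_prop] theorem dA_chr (hH : DifferentiableAt 𝕜 H x) (hT : DifferentiableAt 𝕜 T x) :
    DifferentiableAt 𝕜 (fun z => chr (H z) (T z)) x := by
  unfold chr; fun_prop

@[fun_prop] theorem dA_bar (hg : DifferentiableAt 𝕜 g x) (hT : DifferentiableAt 𝕜 T x) (hβ : DifferentiableAt 𝕜 β x) :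
    DifferentiableAt 𝕜 (fun z => bar (g z) (T z) (β z)) x := by
  unfold bar; fun_prop

@[fun_prop] theorem dA_tr2 (hH : DifferentiableAt 𝕜 H x) (hk : DifferentiableAt 𝕜 k x) :
    DifferentiableAt 𝕜 (fun z => tr2 (H z) (k z)) x := by
  unfold tr2; fun_prop

@[fun_prop] theorem dA_up (hH : DifferentiableAt 𝕜 H x) (hk : DifferentiableAt 𝕜 k x) :
    DifferentiableAt 𝕜 (fun z => up (H z) (k z)) x := by
  unfold up; fun_prop

@[fun_prop] theorem dA_uT (hH : DifferentiableAt 𝕜 H x) (hT : DifferentiableAt 𝕜 T x) :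
    DifferentiableAt 𝕜 (fun z => uT (H z) (T z)) x := by
  unfold uT; fun_prop

@[fun_prop] theorem dA_vT (hH : DifferentiableAt 𝕜 H x) (hT : DifferentiableAt 𝕜 T x) :
    DifferentiableAt 𝕜 (fun z => vT (H z) (T z)) x := by
  unfold vT; fun_prop

@[fun_prop] theorem dA_gv (hH : DifferentiableAt 𝕜 H x) (hT : DifferentiableAt 𝕜 T x) :
    DifferentiableAt 𝕜 (fun z => gv (H z) (T z)) x := by
  unfold gv; fun_prop

@[fun_prop] theorem dA_cc (hT : DifferentiableAt 𝕜 T x) (hτ : DifferentiableAt 𝕜 τ x) :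
    DifferentiableAt 𝕜 (fun z => cc (T z) (τ z)) x := by
  unfold cc; fun_prop

@[fun_prop] theorem dA_ell (hH : DifferentiableAt 𝕜 H x) (hT : DifferentiableAt 𝕜 T x) :
    DifferentiableAt 𝕜 (fun z => ell (H z) (T z)) x := by
  unfold ell; fun_prop

@[fun_prop] theorem dA_lag (hs : DifferentiableAt 𝕜 s x) (hH : DifferentiableAt 𝕜 H x) (hT : DifferentiableAt 𝕜 T x) (hρ : DifferentiableAt 𝕜 ρ x) :
    DifferentiableAt 𝕜 (fun z => lag (s z) (H z) (T z) (ρ z)) x := by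
  unfold lag; fun_prop

@[fun_prop] theorem dA_ip1 (hH : DifferentiableAt 𝕜 H x) (hu : DifferentiableAt 𝕜 u x) (hv : DifferentiableAt 𝕜 v x) :
    DifferentiableAt 𝕜 (fun z => ip1 (H z) (u z) (v z)) x := by
  unfold ip1; fun_prop

@[fun_prop] theorem dA_gau (hs : DifferentiableAt 𝕜 s x) (hH : DifferentiableAt 𝕜 H x) (hT : DifferentiableAt 𝕜 T x) :
    DifferentiableAt 𝕜 (fun z => gau (s z) (H z) (T z)) x := by
  unfold gau; fun_prop

@[fun_prop] theorem dA_fgf (hs : DifferentiableAt 𝕜 s x) (hH : DifferentiableAt 𝕜 H x) (hT : DifferentiableAt 𝕜 T x) (hρ : DifferentiableAt 𝕜 ρ x) :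
    DifferentiableAt 𝕜 (fun z => fgf (s z) (H z) (T z) (ρ z)) x := by
  unfold fgf; fun_prop

@[fun_prop] theorem dA_vG (hs : DifferentiableAt 𝕜 s x) (hH : DifferentiableAt 𝕜 H x) (hk : DifferentiableAt 𝕜 k x) :
    DifferentiableAt 𝕜 (fun z => vG (s z) (H z) (k z)) x := by
  unfold vG; fun_prop

@[fun_prop] theorem dA_fl (hH : DifferentiableAt 𝕜 H x) (hT : DifferentiableAt 𝕜 T x) :
    DifferentiableAt 𝕜 (fun z => fl (H z) (T z)) x := by
  unfold fl; fun_prop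

@[fun_prop] theorem dA_flux (hs : DifferentiableAt 𝕜 s x) (hH : DifferentiableAt 𝕜 H x) (hT : DifferentiableAt 𝕜 T x) :
    DifferentiableAt 𝕜 (fun z => flux (s z) (H z) (T z)) x := by
  unfold flux; fun_prop

@[fun_prop] theorem dA_wL (hs : DifferentiableAt 𝕜 s x) (hH : DifferentiableAt 𝕜 H x) (hT : DifferentiableAt 𝕜 T x) (hk : DifferentiableAt 𝕜 k x) :
    DifferentiableAt 𝕜 (fun z => wL (s z) (H z) (T z) (k z)) x := by
  unfold wL; fun_prop

@[fun_prop] theorem dA_wF (hs : DifferentiableAt 𝕜 s x) (hH : DifferentiableAt 𝕜 H x) (hT : DifferentiableAt 𝕜 T x) (hk : DifferentiableAt 𝕜 k x) :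
    DifferentiableAt 𝕜 (fun z => wF (s z) (H z) (T z) (k z)) x := by
  unfold wF; fun_prop

@[fun_prop] theorem dA_dchr (hH : DifferentiableAt 𝕜 H x) (hT : DifferentiableAt 𝕜 T x) (hk : DifferentiableAt 𝕜 k x) (hτ : DifferentiableAt 𝕜 τ x) :
    DifferentiableAt 𝕜 (fun z => dchr (H z) (T z) (k z) (τ z)) x := by
  unfold dchr; fun_prop

@[fun_prop] theorem dA_dgv (hH : DifferentiableAt 𝕜 H x) (hT : DifferentiableAt 𝕜 T x) (hk : DifferentiableAt 𝕜 k x) (hτ : DifferentiableAt 𝕜 τ x) :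
    DifferentiableAt 𝕜 (fun z => dgv (H z) (T z) (k z) (τ z)) x := by
  unfold dgv; fun_prop

@[fun_prop] theorem dA_dlag (hs : DifferentiableAt 𝕜 s x) (hH : DifferentiableAt 𝕜 H x) (hT : DifferentiableAt 𝕜 T x) (hρ : DifferentiableAt 𝕜 ρ x) (hk : DifferentiableAt 𝕜 k x) (hτ : DifferentiableAt 𝕜 τ x) :
    DifferentiableAt 𝕜 (fun z => dlag (s z) (H z) (T z) (ρ z) (k z) (τ z)) x := by
  unfold dlag; fun_prop

@[fun_prop] theorem dA_dgau (hs : DifferentiableAt 𝕜 s x) (hH : DifferentiableAt 𝕜 H x) (hT : DifferentiableAt 𝕜 T x) (hk : DifferentiableAt 𝕜 k x) (hτ : DifferentiableAt 𝕜 τ x) :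
    DifferentiableAt 𝕜 (fun z => dgau (s z) (H z) (T z) (k z) (τ z)) x := by
  unfold dgau; fun_prop

@[fun_prop] theorem dA_dfgf (hs : DifferentiableAt 𝕜 s x) (hH : DifferentiableAt 𝕜 H x) (hT : DifferentiableAt 𝕜 T x) (hρ : DifferentiableAt 𝕜 ρ x) (hk : DifferentiableAt 𝕜 k x) (hτ : DifferentiableAt 𝕜 τ x) :
    DifferentiableAt 𝕜 (fun z => dfgf (s z) (H z) (T z) (ρ z) (k z) (τ z)) x := by
  unfold dfgf; fun_prop

@[fun_prop] theorem dA_ricC (hT : DifferentiableAt 𝕜 T x) (hQ : DifferentiableAt 𝕜 Q x) :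
    DifferentiableAt 𝕜 (fun z => ricC (T z) (Q z)) x := by
  unfold ricC; fun_prop

@[fun_prop] theorem dA_ricJ (hH : DifferentiableAt 𝕜 H x) (hT : DifferentiableAt 𝕜 T x) (hQ : DifferentiableAt 𝕜 Q x) :
    DifferentiableAt 𝕜 (fun z => ricJ (H z) (T z) (Q z)) x := by
  unfold ricJ; fun_prop

@[fun_prop] theorem dA_redJ (hH : DifferentiableAt 𝕜 H x) (hT : DifferentiableAt 𝕜 T x) (hQ : DifferentiableAt 𝕜 Q x) :
    DifferentiableAt 𝕜 (fun z => redJ (H z) (T z) (Q z)) x := by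
  unfold redJ; fun_prop

@[fun_prop] theorem dA_qd (hH : DifferentiableAt 𝕜 H x) (hT : DifferentiableAt 𝕜 T x) :
    DifferentiableAt 𝕜 (fun z => qd (H z) (T z)) x := by
  unfold qd; fun_prop

@[fun_prop] theorem dA_lapJ (hH : DifferentiableAt 𝕜 H x) (hQ : DifferentiableAt 𝕜 Q x) :
    DifferentiableAt 𝕜 (fun z => lapJ (H z) (Q z)) x := by
  unfold lapJ; fun_prop

@[fun_prop] theorem dA_bar3 (hT : DifferentiableAt 𝕜 T x) (hQ : DifferentiableAt 𝕜 Q x) (hβ : DifferentiableAt 𝕜 β x) :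
    DifferentiableAt 𝕜 (fun z => bar3 (T z) (Q z) (β z)) x := by
  unfold bar3; fun_prop

@[fun_prop] theorem dA_rie (hβ : DifferentiableAt 𝕜 β x) (hQ : DifferentiableAt 𝕜 Q x) :
    DifferentiableAt 𝕜 (fun z => rie (β z) (Q z)) x := by
  unfold rie; fun_prop

@[fun_prop] theorem dA_dbar (hg : DifferentiableAt 𝕜 g x) (hT : DifferentiableAt 𝕜 T x) (hQ : DifferentiableAt 𝕜 Q x) (hβ : DifferentiableAt 𝕜 β x) (hR : DifferentiableAt 𝕜 R x) :
    DifferentiableAt 𝕜 (fun z => dbar (g z) (T z) (Q z) (β z) (R z)) x := by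
  unfold dbar; fun_prop

@[fun_prop] theorem dA_cvJ (hg : DifferentiableAt 𝕜 g x) (hH : DifferentiableAt 𝕜 H x) (hR : DifferentiableAt 𝕜 R x) :
    DifferentiableAt 𝕜 (fun z => cvJ (g z) (H z) (R z)) x := by
  unfold cvJ; fun_prop

@[fun_prop] theorem cA_low (hT : ContDiffAt 𝕜 m T x) :
    ContDiffAt 𝕜 m (fun z => low (T z)) x := by
  unfold low; fun_prop

@[fun_prop] theorem cA_chr (hH : ContDiffAt 𝕜 m H x) (hT : ContDiffAt 𝕜 m T x) :
    ContDiffAt 𝕜 m (fun z => chr (H z) (T z)) x := by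
  unfold chr; fun_prop

@[fun_prop] theorem cA_bar (hg : ContDiffAt 𝕜 m g x) (hT : ContDiffAt 𝕜 m T x) (hβ : ContDiffAt 𝕜 m β x) :
    ContDiffAt 𝕜 m (fun z => bar (g z) (T z) (β z)) x := by
  unfold bar; fun_prop

@[fun_prop] theorem cA_tr2 (hH : ContDiffAt 𝕜 m H x) (hk : ContDiffAt 𝕜 m k x) :
    ContDiffAt 𝕜 m (fun z => tr2 (H z) (k z)) x := by
  unfold tr2; fun_prop

@[fun_prop] theorem cA_up (hH : ContDiffAt 𝕜 m H x) (hk : ContDiffAt 𝕜 m k x) :
    ContDiffAt 𝕜 m (fun z => up (H z) (k z)) x := by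
  unfold up; fun_prop

@[fun_prop] theorem cA_uT (hH : ContDiffAt 𝕜 m H x) (hT : ContDiffAt 𝕜 m T x) :
    ContDiffAt 𝕜 m (fun z => uT (H z) (T z)) x := by
  unfold uT; fun_prop

@[fun_prop] theorem cA_vT (hH : ContDiffAt 𝕜 m H x) (hT : ContDiffAt 𝕜 m T x) :
    ContDiffAt 𝕜 m (fun z => vT (H z) (T z)) x := by
  unfold vT; fun_prop

@[fun_prop] theorem cA_gv (hH : ContDiffAt 𝕜 m H x) (hT : ContDiffAt 𝕜 m T x) :
    ContDiffAt 𝕜 m (fun z => gv (H z) (T z)) x := by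
  unfold gv; fun_prop

@[fun_prop] theorem cA_cc (hT : ContDiffAt 𝕜 m T x) (hτ : ContDiffAt 𝕜 m τ x) :
    ContDiffAt 𝕜 m (fun z => cc (T z) (τ z)) x := by
  unfold cc; fun_prop

@[fun_prop] theorem cA_ell (hH : ContDiffAt 𝕜 m H x) (hT : ContDiffAt 𝕜 m T x) :
    ContDiffAt 𝕜 m (fun z => ell (H z) (T z)) x := by
  unfold ell; fun_prop

@[fun_prop] theorem cA_lag (hs : ContDiffAt 𝕜 m s x) (hH : ContDiffAt 𝕜 m H x) (hT : ContDiffAt 𝕜 m T x) (hρ : ContDiffAt 𝕜 m ρ x) :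
    ContDiffAt 𝕜 m (fun z => lag (s z) (H z) (T z) (ρ z)) x := by
  unfold lag; fun_prop

@[fun_prop] theorem cA_ip1 (hH : ContDiffAt 𝕜 m H x) (hu : ContDiffAt 𝕜 m u x) (hv : ContDiffAt 𝕜 m v x) :
    ContDiffAt 𝕜 m (fun z => ip1 (H z) (u z) (v z)) x := by
  unfold ip1; fun_prop

@[fun_prop] theorem cA_gau (hs : ContDiffAt 𝕜 m s x) (hH : ContDiffAt 𝕜 m H x) (hT : ContDiffAt 𝕜 m T x) :
    ContDiffAt 𝕜 m (fun z => gau (s z) (H z) (T z)) x := by
  unfold gau; fun_prop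

@[fun_prop] theorem cA_fgf (hs : ContDiffAt 𝕜 m s x) (hH : ContDiffAt 𝕜 m H x) (hT : ContDiffAt 𝕜 m T x) (hρ : ContDiffAt 𝕜 m ρ x) :
    ContDiffAt 𝕜 m (fun z => fgf (s z) (H z) (T z) (ρ z)) x := by
  unfold fgf; fun_prop

@[fun_prop] theorem cA_vG (hs : ContDiffAt 𝕜 m s x) (hH : ContDiffAt 𝕜 m H x) (hk : ContDiffAt 𝕜 m k x) :
    ContDiffAt 𝕜 m (fun z => vG (s z) (H z) (k z)) x := by
  unfold vG; fun_prop

@[fun_prop] theorem cA_fl (hH : ContDiffAt 𝕜 m H x) (hT : ContDiffAt 𝕜 m T x) :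
    ContDiffAt 𝕜 m (fun z => fl (H z) (T z)) x := by
  unfold fl; fun_prop

@[fun_prop] theorem cA_flux (hs : ContDiffAt 𝕜 m s x) (hH : ContDiffAt 𝕜 m H x) (hT : ContDiffAt 𝕜 m T x) :
    ContDiffAt 𝕜 m (fun z => flux (s z) (H z) (T z)) x := by
  unfold flux; fun_prop

@[fun_prop] theorem cA_wL (hs : ContDiffAt 𝕜 m s x) (hH : ContDiffAt 𝕜 m H x) (hT : ContDiffAt 𝕜 m T x) (hk : ContDiffAt 𝕜 m k x) :
    ContDiffAt 𝕜 m (fun z => wL (s z) (H z) (T z) (k z)) x := by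
  unfold wL; fun_prop

@[fun_prop] theorem cA_wF (hs : ContDiffAt 𝕜 m s x) (hH : ContDiffAt 𝕜 m H x) (hT : ContDiffAt 𝕜 m T x) (hk : ContDiffAt 𝕜 m k x) :
    ContDiffAt 𝕜 m (fun z => wF (s z) (H z) (T z) (k z)) x := by
  unfold wF; fun_prop

@[fun_prop] theorem cA_dchr (hH : ContDiffAt 𝕜 m H x) (hT : ContDiffAt 𝕜 m T x) (hk : ContDiffAt 𝕜 m k x) (hτ : ContDiffAt 𝕜 m τ x) :
    ContDiffAt 𝕜 m (fun z => dchr (H z) (T z) (k z) (τ z)) x := by
  unfold dchr; fun_prop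

@[fun_prop] theorem cA_dgv (hH : ContDiffAt 𝕜 m H x) (hT : ContDiffAt 𝕜 m T x) (hk : ContDiffAt 𝕜 m k x) (hτ : ContDiffAt 𝕜 m τ x) :
    ContDiffAt 𝕜 m (fun z => dgv (H z) (T z) (k z) (τ z)) x := by
  unfold dgv; fun_prop

@[fun_prop] theorem cA_dlag (hs : ContDiffAt 𝕜 m s x) (hH : ContDiffAt 𝕜 m H x) (hT : ContDiffAt 𝕜 m T x) (hρ : ContDiffAt 𝕜 m ρ x) (hk : ContDiffAt 𝕜 m k x) (hτ : ContDiffAt 𝕜 m τ x) :
    ContDiffAt 𝕜 m (fun z => dlag (s z) (H z) (T z) (ρ z) (k z) (τ z)) x := by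
  unfold dlag; fun_prop

@[fun_prop] theorem cA_dgau (hs : ContDiffAt 𝕜 m s x) (hH : ContDiffAt 𝕜 m H x) (hT : ContDiffAt 𝕜 m T x) (hk : ContDiffAt 𝕜 m k x) (hτ : ContDiffAt 𝕜 m τ x) :
    ContDiffAt 𝕜 m (fun z => dgau (s z) (H z) (T z) (k z) (τ z)) x := by
  unfold dgau; fun_prop

@[fun_prop] theorem cA_dfgf (hs : ContDiffAt 𝕜 m s x) (hH : ContDiffAt 𝕜 m H x) (hT : ContDiffAt 𝕜 m T x) (hρ : ContDiffAt 𝕜 m ρ x) (hk : ContDiffAt 𝕜 m k x) (hτ : ContDiffAt 𝕜 m τ x) :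
    ContDiffAt 𝕜 m (fun z => dfgf (s z) (H z) (T z) (ρ z) (k z) (τ z)) x := by
  unfold dfgf; fun_prop

@[fun_prop] theorem cA_ricC (hT : ContDiffAt 𝕜 m T x) (hQ : ContDiffAt 𝕜 m Q x) :
    ContDiffAt 𝕜 m (fun z => ricC (T z) (Q z)) x := by
  unfold ricC; fun_prop

@[fun_prop] theorem cA_ricJ (hH : ContDiffAt 𝕜 m H x) (hT : ContDiffAt 𝕜 m T x) (hQ : ContDiffAt 𝕜 m Q x) :
    ContDiffAt 𝕜 m (fun z => ricJ (H z) (T z) (Q z)) x := by
  unfold ricJ; fun_prop

@[fun_prop] theorem cA_redJ (hH : ContDiffAt 𝕜 m H x) (hT : ContDiffAt 𝕜 m T x) (hQ : ContDiffAt 𝕜 m Q x) :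
    ContDiffAt 𝕜 m (fun z => redJ (H z) (T z) (Q z)) x := by
  unfold redJ; fun_prop

@[fun_prop] theorem cA_qd (hH : ContDiffAt 𝕜 m H x) (hT : ContDiffAt 𝕜 m T x) :
    ContDiffAt 𝕜 m (fun z => qd (H z) (T z)) x := by
  unfold qd; fun_prop

@[fun_prop] theorem cA_lapJ (hH : ContDiffAt 𝕜 m H x) (hQ : ContDiffAt 𝕜 m Q x) :
    ContDiffAt 𝕜 m (fun z => lapJ (H z) (Q z)) x := by
  unfold lapJ; fun_prop

@[fun_prop] theorem cA_bar3 (hT : ContDiffAt 𝕜 m T x) (hQ : ContDiffAt 𝕜 m Q x) (hβ : ContDiffAt 𝕜 m β x) :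
    ContDiffAt 𝕜 m (fun z => bar3 (T z) (Q z) (β z)) x := by
  unfold bar3; fun_prop

@[fun_prop] theorem cA_rie (hβ : ContDiffAt 𝕜 m β x) (hQ : ContDiffAt 𝕜 m Q x) :
    ContDiffAt 𝕜 m (fun z => rie (β z) (Q z)) x := by
  unfold rie; fun_prop

@[fun_prop] theorem cA_dbar (hg : ContDiffAt 𝕜 m g x) (hT : ContDiffAt 𝕜 m T x) (hQ : ContDiffAt 𝕜 m Q x) (hβ : ContDiffAt 𝕜 m β x) (hR : ContDiffAt 𝕜 m R x) :
    ContDiffAt 𝕜 m (fun z => dbar (g z) (T z) (Q z) (β z) (R z)) x := by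
  unfold dbar; fun_prop

@[fun_prop] theorem cA_cvJ (hg : ContDiffAt 𝕜 m g x) (hH : ContDiffAt 𝕜 m H x) (hR : ContDiffAt 𝕜 m R x) :
    ContDiffAt 𝕜 m (fun z => cvJ (g z) (H z) (R z)) x := by
  unfold cvJ; fun_prop

@[fun_prop] theorem cO_low (hT : ContDiffOn 𝕜 m T S) :
    ContDiffOn 𝕜 m (fun z => low (T z)) S := by
  unfold low; fun_prop

@[fun_prop] theorem cO_chr (hH : ContDiffOn 𝕜 m H S) (hT : ContDiffOn 𝕜 m T S) :
    ContDiffOn 𝕜 m (fun z => chr (H z) (T z)) S := by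
  unfold chr; fun_prop

@[fun_prop] theorem cO_bar (hg : ContDiffOn 𝕜 m g S) (hT : ContDiffOn 𝕜 m T S) (hβ : ContDiffOn 𝕜 m β S) :
    ContDiffOn 𝕜 m (fun z => bar (g z) (T z) (β z)) S := by
  unfold bar; fun_prop

@[fun_prop] theorem cO_tr2 (hH : ContDiffOn 𝕜 m H S) (hk : ContDiffOn 𝕜 m k S) :
    ContDiffOn 𝕜 m (fun z => tr2 (H z) (k z)) S := by
  unfold tr2; fun_prop

@[fun_prop] theorem cO_up (hH : ContDiffOn 𝕜 m H S) (hk : ContDiffOn 𝕜 m k S) :
    ContDiffOn 𝕜 m (fun z => up (H z) (k z)) S := by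
  unfold up; fun_prop

@[fun_prop] theorem cO_uT (hH : ContDiffOn 𝕜 m H S) (hT : ContDiffOn 𝕜 m T S) :
    ContDiffOn 𝕜 m (fun z => uT (H z) (T z)) S := by
  unfold uT; fun_prop

@[fun_prop] theorem cO_vT (hH : ContDiffOn 𝕜 m H S) (hT : ContDiffOn 𝕜 m T S) :
    ContDiffOn 𝕜 m (fun z => vT (H z) (T z)) S := by
  unfold vT; fun_prop

@[fun_prop] theorem cO_gv (hH : ContDiffOn 𝕜 m H S) (hT : ContDiffOn 𝕜 m T S) :
    ContDiffOn 𝕜 m (fun z => gv (H z) (T z)) S := by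
  unfold gv; fun_prop

@[fun_prop] theorem cO_cc (hT : ContDiffOn 𝕜 m T S) (hτ : ContDiffOn 𝕜 m τ S) :
    ContDiffOn 𝕜 m (fun z => cc (T z) (τ z)) S := by
  unfold cc; fun_prop

@[fun_prop] theorem cO_ell (hH : ContDiffOn 𝕜 m H S) (hT : ContDiffOn 𝕜 m T S) :
    ContDiffOn 𝕜 m (fun z => ell (H z) (T z)) S := by
  unfold ell; fun_prop

@[fun_prop] theorem cO_lag (hs : ContDiffOn 𝕜 m s S) (hH : ContDiffOn 𝕜 m H S) (hT : ContDiffOn 𝕜 m T S) (hρ : ContDiffOn 𝕜 m ρ S) :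
    ContDiffOn 𝕜 m (fun z => lag (s z) (H z) (T z) (ρ z)) S := by
  unfold lag; fun_prop

@[fun_prop] theorem cO_ip1 (hH : ContDiffOn 𝕜 m H S) (hu : ContDiffOn 𝕜 m u S) (hv : ContDiffOn 𝕜 m v S) :
    ContDiffOn 𝕜 m (fun z => ip1 (H z) (u z) (v z)) S := by
  unfold ip1; fun_prop

@[fun_prop] theorem cO_gau (hs : ContDiffOn 𝕜 m s S) (hH : ContDiffOn 𝕜 m H S) (hT : ContDiffOn 𝕜 m T S) :
    ContDiffOn 𝕜 m (fun z => gau (s z) (H z) (T z)) S := by
  unfold gau; fun_prop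

@[fun_prop] theorem cO_fgf (hs : ContDiffOn 𝕜 m s S) (hH : ContDiffOn 𝕜 m H S) (hT : ContDiffOn 𝕜 m T S) (hρ : ContDiffOn 𝕜 m ρ S) :
    ContDiffOn 𝕜 m (fun z => fgf (s z) (H z) (T z) (ρ z)) S := by
  unfold fgf; fun_prop

@[fun_prop] theorem cO_vG (hs : ContDiffOn 𝕜 m s S) (hH : ContDiffOn 𝕜 m H S) (hk : ContDiffOn 𝕜 m k S) :
    ContDiffOn 𝕜 m (fun z => vG (s z) (H z) (k z)) S := by
  unfold vG; fun_prop

@[fun_prop] theorem cO_fl (hH : ContDiffOn 𝕜 m H S) (hT : ContDiffOn 𝕜 m T S) :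
    ContDiffOn 𝕜 m (fun z => fl (H z) (T z)) S := by
  unfold fl; fun_prop

@[fun_prop] theorem cO_flux (hs : ContDiffOn 𝕜 m s S) (hH : ContDiffOn 𝕜 m H S) (hT : ContDiffOn 𝕜 m T S) :
    ContDiffOn 𝕜 m (fun z => flux (s z) (H z) (T z)) S := by
  unfold flux; fun_prop

@[fun_prop] theorem cO_wL (hs : ContDiffOn 𝕜 m s S) (hH : ContDiffOn 𝕜 m H S) (hT : ContDiffOn 𝕜 m T S) (hk : ContDiffOn 𝕜 m k S) :
    ContDiffOn 𝕜 m (fun z => wL (s z) (H z) (T z) (k z)) S := by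
  unfold wL; fun_prop

@[fun_prop] theorem cO_wF (hs : ContDiffOn 𝕜 m s S) (hH : ContDiffOn 𝕜 m H S) (hT : ContDiffOn 𝕜 m T S) (hk : ContDiffOn 𝕜 m k S) :
    ContDiffOn 𝕜 m (fun z => wF (s z) (H z) (T z) (k z)) S := by
  unfold wF; fun_prop

@[fun_prop] theorem cO_dchr (hH : ContDiffOn 𝕜 m H S) (hT : ContDiffOn 𝕜 m T S) (hk : ContDiffOn 𝕜 m k S) (hτ : ContDiffOn 𝕜 m τ S) :
    ContDiffOn 𝕜 m (fun z => dchr (H z) (T z) (k z) (τ z)) S := by
  unfold dchr; fun_prop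

@[fun_prop] theorem cO_dgv (hH : ContDiffOn 𝕜 m H S) (hT : ContDiffOn 𝕜 m T S) (hk : ContDiffOn 𝕜 m k S) (hτ : ContDiffOn 𝕜 m τ S) :
    ContDiffOn 𝕜 m (fun z => dgv (H z) (T z) (k z) (τ z)) S := by
  unfold dgv; fun_prop

@[fun_prop] theorem cO_dlag (hs : ContDiffOn 𝕜 m s S) (hH : ContDiffOn 𝕜 m H S) (hT : ContDiffOn 𝕜 m T S) (hρ : ContDiffOn 𝕜 m ρ S) (hk : ContDiffOn 𝕜 m k S) (hτ : ContDiffOn 𝕜 m τ S) :
    ContDiffOn 𝕜 m (fun z => dlag (s z) (H z) (T z) (ρ z) (k z) (τ z)) S := by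
  unfold dlag; fun_prop

@[fun_prop] theorem cO_dgau (hs : ContDiffOn 𝕜 m s S) (hH : ContDiffOn 𝕜 m H S) (hT : ContDiffOn 𝕜 m T S) (hk : ContDiffOn 𝕜 m k S) (hτ : ContDiffOn 𝕜 m τ S) :
    ContDiffOn 𝕜 m (fun z => dgau (s z) (H z) (T z) (k z) (τ z)) S := by
  unfold dgau; fun_prop

@[fun_prop] theorem cO_dfgf (hs : ContDiffOn 𝕜 m s S) (hH : ContDiffOn 𝕜 m H S) (hT : ContDiffOn 𝕜 m T S) (hρ : ContDiffOn 𝕜 m ρ S) (hk : ContDiffOn 𝕜 m k S) (hτ : ContDiffOn 𝕜 m τ S) :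
    ContDiffOn 𝕜 m (fun z => dfgf (s z) (H z) (T z) (ρ z) (k z) (τ z)) S := by
  unfold dfgf; fun_prop

@[fun_prop] theorem cO_ricC (hT : ContDiffOn 𝕜 m T S) (hQ : ContDiffOn 𝕜 m Q S) :
    ContDiffOn 𝕜 m (fun z => ricC (T z) (Q z)) S := by
  unfold ricC; fun_prop

@[fun_prop] theorem cO_ricJ (hH : ContDiffOn 𝕜 m H S) (hT : ContDiffOn 𝕜 m T S) (hQ : ContDiffOn 𝕜 m Q S) :
    ContDiffOn 𝕜 m (fun z => ricJ (H z) (T z) (Q z)) S := by
  unfold ricJ; fun_prop

@[fun_prop] theorem cO_redJ (hH : ContDiffOn 𝕜 m H S) (hT : ContDiffOn 𝕜 m T S) (hQ : ContDiffOn 𝕜 m Q S) :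
    ContDiffOn 𝕜 m (fun z => redJ (H z) (T z) (Q z)) S := by
  unfold redJ; fun_prop

@[fun_prop] theorem cO_qd (hH : ContDiffOn 𝕜 m H S) (hT : ContDiffOn 𝕜 m T S) :
    ContDiffOn 𝕜 m (fun z => qd (H z) (T z)) S := by
  unfold qd; fun_prop

@[fun_prop] theorem cO_lapJ (hH : ContDiffOn 𝕜 m H S) (hQ : ContDiffOn 𝕜 m Q S) :
    ContDiffOn 𝕜 m (fun z => lapJ (H z) (Q z)) S := by
  unfold lapJ; fun_prop

@[fun_prop] theorem cO_bar3 (hT : ContDiffOn 𝕜 m T S) (hQ : ContDiffOn 𝕜 m Q S) (hβ : ContDiffOn 𝕜 m β S) :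
    ContDiffOn 𝕜 m (fun z => bar3 (T z) (Q z) (β z)) S := by
  unfold bar3; fun_prop

@[fun_prop] theorem cO_rie (hβ : ContDiffOn 𝕜 m β S) (hQ : ContDiffOn 𝕜 m Q S) :
    ContDiffOn 𝕜 m (fun z => rie (β z) (Q z)) S := by
  unfold rie; fun_prop

@[fun_prop] theorem cO_dbar (hg : ContDiffOn 𝕜 m g S) (hT : ContDiffOn 𝕜 m T S) (hQ : ContDiffOn 𝕜 m Q S) (hβ : ContDiffOn 𝕜 m β S) (hR : ContDiffOn 𝕜 m R S) :
    ContDiffOn 𝕜 m (fun z => dbar (g z) (T z) (Q z) (β z) (R z)) S := by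
  unfold dbar; fun_prop

@[fun_prop] theorem cO_cvJ (hg : ContDiffOn 𝕜 m g S) (hH : ContDiffOn 𝕜 m H S) (hR : ContDiffOn 𝕜 m R S) :
    ContDiffOn 𝕜 m (fun z => cvJ (g z) (H z) (R z)) S := by
  unfold cvJ; fun_prop

end Crest.Agent.N207.Lg

end
end

-- ▼ part N207/Lg/Fun1

/-!
# Row 207 (helper54): the Lagrangian identities for metric fields in coordinates

`eh_eq` (`√G R = lagF + div fluxF`), `dlag_eq`, `dfgf_eq` (first variation), `redT_eq`
(scalar principal part), `ricci_eq`.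
-/

set_option autoImplicit false
set_option linter.unusedSectionVars false

open Finset Filter Set
open scoped Topology ContDiff
open Crest.GeometryTopology.CoordMetric Crest.GeometryTopology.ChartCurvature
  Crest.GeometryTopology.MetricFamily

noncomputable section

namespace Crest.Agent.N207.Lg

variable {n : ℕ} {G gb K : MetricField n} {U : Set (En n)} {y : En n}

/-- first partial derivatives -/
def jet (K : MetricField n) (y : En n) : M3 (Fin n) ℝ := fun c a b => pderiv c (fun z => K z a b) y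
/-- second partial derivatives -/
def jet2 (K : MetricField n) (y : En n) : M4 (Fin n) ℝ := fun c d a b =>
  pderiv c (fun z => jet K z d a b) y
/-- partial derivatives of the Christoffel symbols -/
def dGam (G : MetricField n) (y : En n) : M4 (Fin n) ℝ := fun c k i j =>
  pderiv c (fun z => christoffel G z k i j) y

/-- coordinate line -/
def ln (y : En n) (c : Fin n) (r : ℝ) : En n := y + r • EuclideanSpace.single c 1

theorem ln_zero (y : En n) (c : Fin n) : ln y c 0 = y := by simp [ln]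

theorem pd_line {f : En n → ℝ} (hf : DifferentiableAt ℝ f y) (c : Fin n) :
    HasDerivWithinAt (fun r => f (ln y c r)) (pderiv c f y) univ 0 := by
  have h1 : HasDerivAt (ln y c) (EuclideanSpace.single c 1) 0 := by
    have := ((hasDerivAt_id (0 : ℝ)).smul_const (EuclideanSpace.single c (1 : ℝ))).const_add y
    rw [one_smul] at this
    exact this
  have h2 : HasFDerivAt f (fderiv ℝ f y) (ln y c 0) := by rw [ln_zero]; exact hf.hasFDerivAt
  exact (h2.comp_hasDerivAt 0 h1).hasDerivWithinAt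

theorem pd_eq {f : En n → ℝ} (hf : DifferentiableAt ℝ f y) {c : Fin n} {v : ℝ}
    (h : HasDerivWithinAt (fun r => f (ln y c r)) v univ 0) : pderiv c f y = v :=
  (pd_line hf c).hasDerivAt univ_mem |>.unique (h.hasDerivAt univ_mem)

theorem chr_eq (G : MetricField n) (y : En n) : christoffel G y = chr (iv G y) (jet G y) := by
  funext k i j
  simp only [christoffel, chr, low, iv, jet, inverseField, mul_sum]
  exact sum_congr rfl fun l _ => by ring

theorem TG_eq (gb K : MetricField n) (y : En n) :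
    TG gb K y = bar (K y) (jet K y) (christoffel gb y) := by
  funext c a b
  simp only [TG, a3, cov_two]; rfl

theorem TTG_eq (gb K : MetricField n) (y : En n) :
    TTG gb K y = bar3 (TG gb K y) (fun c d a b => pderiv c (fun z => TG gb K z d a b) y)
      (christoffel gb y) := by
  funext c d a b
  simp only [TTG, a4, cov_three]; rfl

theorem riemann_eq (G : MetricField n) (y : En n) :
    riemann G y = rie (christoffel G y) (dGam G y) := rfl

theorem g_sy (hG : IsRiemannianOn G U) (hy : y ∈ U) : Sy2 (G y) := fun i j => by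
  have := (hG.posDef y hy).isHermitian.apply j i
  simpa using this

theorem iv_sy (hG : IsRiemannianOn G U) (hy : y ∈ U) : Sy2 (iv G y) := ginv_symm hG hy

theorem iv_inv (hG : IsRiemannianOn G U) (hy : y ∈ U) : Iv (G y) (iv G y) :=
  ⟨fun v i => ginv_g_sum hG hy i v, fun v i => g_ginv_sum hG hy i v⟩

theorem jet_sy (hK : ∀ᶠ z in 𝓝 y, Sy2 (K z)) : Sy3 (jet K y) := fun c a b =>
  pd_congr c (hK.mono fun _ hz => hz a b)

theorem g_sy_ev (hG : IsRiemannianOn G U) (hy : y ∈ U) : ∀ᶠ z in 𝓝 y, Sy2 (G z) :=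
  mem_of_superset (hG.isOpen.mem_nhds hy) fun _ hz => g_sy hG hz

theorem gam_sy (hG : IsRiemannianOn G U) (hy : y ∈ U) : Sy3 (christoffel G y) := by
  rw [chr_eq]; exact chr_sy _ (jet_sy (g_sy_ev hG hy))

theorem dGam_sy (hG : IsRiemannianOn G U) (hy : y ∈ U) (c : Fin n) : Sy3 (dGam G y c) :=
  fun k i j => pd_congr_on c hG.isOpen hy fun _ hz => gam_sy hG hz k i j

theorem TG_sy (gb : MetricField n) (hK : ∀ᶠ z in 𝓝 y, Sy2 (K z)) : Sy3 (TG gb K y) := by
  rw [TG_eq]; exact bar_sy _ hK.self_of_nhds (jet_sy hK)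

theorem TTG_sy (gb : MetricField n) (hK : ∀ᶠ z in 𝓝 y, Sy2 (K z)) (c : Fin n) :
    Sy3 (TTG gb K y c) := fun d a b => by
  have h0 := TG_sy gb hK
  have h1 : pderiv c (fun z => TG gb K z d a b) y = pderiv c (fun z => TG gb K z d b a) y :=
    pd_congr c (hK.eventually_nhds.mono fun z hz => TG_sy gb hz d a b)
  have h2 : ∀ m, TG gb K y m a b = TG gb K y m b a := fun m => h0 m a b
  have h3 : ∀ m, TG gb K y d m b = TG gb K y d b m := fun m => h0 d m b
  have h4 : ∀ m, TG gb K y d a m = TG gb K y d m a := fun m => h0 d a m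
  simp only [TTG_eq, bar3, h1, h2, h3, h4]; ring

theorem ricci_eq_ricC (hG : IsRiemannianOn G U) (hy : y ∈ U) :
    ricci G y = ricC (christoffel G y) (dGam G y) := by
  funext i j
  simp only [ricci, ricC, cc, dGam]
  rw [pd_sum j _ fun k _ => dAt (sm_chr hG k k i) hG.isOpen hy]; ring

theorem jet2_comm (hK : ∀ a b, ContDiffAt ℝ 2 (fun z => K z a b) y) (c d a b : Fin n) :
    jet2 K y c d a b = jet2 K y d c a b := pd_comm c d (hK a b)

/-- `Γ(G) - Γ(gb) = chr G⁻¹ (∇̄ G)` -/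
theorem chr_TG (hb : IsRiemannianOn gb U) (hG : IsRiemannianOn G U) (hy : y ∈ U) :
    chr (iv G y) (TG gb G y) = christoffel G y - christoffel gb y := by
  rw [TG_eq, chr_bar _ (iv_inv hG hy) (g_sy hG hy) (gam_sy hb hy), ← chr_eq]

/-! ### differentiability -/

theorem d_mat (hK : ∀ a b, DifferentiableAt ℝ (fun z => K z a b) y) :
    DifferentiableAt (F := M2 (Fin n) ℝ) ℝ K y :=
  differentiableAt_pi.2 fun a => differentiableAt_pi.2 fun b => hK a b

theorem d_g (hG : IsRiemannianOn G U) (hy : y ∈ U) (a b : Fin n) :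
    DifferentiableAt ℝ (fun z => G z a b) y := dAt (hG.contDiffOn a b) hG.isOpen hy

theorem d_iv (hG : IsRiemannianOn G U) (hy : y ∈ U) : DifferentiableAt ℝ (iv G) y :=
  differentiableAt_pi.2 fun a => differentiableAt_pi.2 fun b => dAt (sm_inv hG a b) hG.isOpen hy

theorem d_sq (hG : IsRiemannianOn G U) (hy : y ∈ U) : DifferentiableAt ℝ (sq G) y :=
  dAt (sm_sqrt_det hG) hG.isOpen hy

theorem d_TG (hb : IsRiemannianOn gb U) (hG : IsRiemannianOn G U) (hy : y ∈ U) :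
    DifferentiableAt ℝ (TG gb G) y :=
  differentiableAt_pi.2 fun _ => differentiableAt_pi.2 fun _ => differentiableAt_pi.2 fun _ =>
    ((SmT.met hG).cov hb).dAt hG.isOpen hy _

theorem dA_ap {F : En n → Fin n → ℝ} (h : DifferentiableAt ℝ F y) (c : Fin n) :
    DifferentiableAt ℝ (fun z => F z c) y := differentiableAt_pi.1 h c

theorem dA_ap2 {F : En n → M2 (Fin n) ℝ} (h : DifferentiableAt ℝ F y) (c j : Fin n) :
    DifferentiableAt ℝ (fun z => F z c j) y := differentiableAt_pi.1 (differentiableAt_pi.1 h c) j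

/-! ### derivatives along coordinate lines -/

theorem ln_mat (hK : ∀ a b, DifferentiableAt ℝ (fun z => K z a b) y) (c : Fin n) :
    HD2 univ 0 (fun r => K (ln y c r)) (jet K y c) := fun a b => pd_line (hK a b) c

theorem ln_iv (hG : IsRiemannianOn G U) (hy : y ∈ U) (c : Fin n) :
    HD2 univ 0 (fun r => iv G (ln y c r)) (-up (iv G (ln y c 0)) (jet G y c)) :=
  hd_inv (ln_mat (d_g hG hy) c) (by rw [ln_zero]; exact (hG.posDef y hy).det_pos.ne')

theorem hd_sqrt_det {J : Set ℝ} {t : ℝ} {A : ℝ → Matrix (Fin n) (Fin n) ℝ} {a : M2 (Fin n) ℝ}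
    (hA : HD2 J t A a) (ha : Sy2 a) (hd : 0 < (A t).det) :
    HasDerivWithinAt (fun r => √(A r).det)
      ((1 / 2) * √(A t).det * tr2 (fun i j => (A t)⁻¹ i j) a) J t := by
  refine ((hd_det' hA ha hd.ne').sqrt hd.ne').congr_deriv ?_
  have h2 : √(A t).det ≠ 0 := (Real.sqrt_pos.2 hd).ne'
  have h3 : (A t).det = √(A t).det * √(A t).det := (Real.mul_self_sqrt hd.le).symm
  set s := √(A t).det
  rw [h3]; field_simp

theorem ln_sq (hG : IsRiemannianOn G U) (hy : y ∈ U) (c : Fin n) :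
    HasDerivWithinAt (fun r => sq G (ln y c r))
      ((1 / 2) * sq G (ln y c 0) * tr2 (iv G (ln y c 0)) (jet G y c)) univ 0 :=
  hd_sqrt_det (ln_mat (d_g hG hy) c) ((jet_sy (g_sy_ev hG hy)).ap c)
    (by rw [ln_zero]; exact (hG.posDef y hy).det_pos)

theorem ln_gam (hG : IsRiemannianOn G U) (hy : y ∈ U) (c : Fin n) :
    HD3 univ 0 (fun r => christoffel G (ln y c r)) (dGam G y c) := fun k i j =>
  pd_line (dAt (sm_chr hG k i j) hG.isOpen hy) c

theorem pd_TG (hb : IsRiemannianOn gb U) (hK : ∀ a b, ContDiffAt ℝ 2 (fun z => K z a b) y)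
    (hy : y ∈ U) : (fun c d a b => pderiv c (fun z => TG gb K z d a b) y) =
      dbar (K y) (jet K y) (jet2 K y) (christoffel gb y) (dGam gb y) := by
  funext c d a b
  have h1 : ∀ a b, DifferentiableAt ℝ (fun z => K z a b) y := fun a b =>
    (hK a b).differentiableAt (by norm_num)
  have h2 : ∀ d a b, DifferentiableAt ℝ (fun z => jet K z d a b) y := fun d a b =>
    (R247.Bo84.contDiffAt_pderiv (m := 1) (hK a b) (by norm_num) d).differentiableAt (by norm_num)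
  have h3 : ∀ k i j, DifferentiableAt ℝ (fun z => christoffel gb z k i j) y := fun k i j =>
    dAt (sm_chr hb k i j) hb.isOpen hy
  simp only [TG_eq, bar, dbar]
  rw [pd_sub c ((h2 d a b).fun_sub (.fun_sum fun m _ => (h3 m d a).fun_mul (h1 m b)))
    (.fun_sum fun m _ => (h3 m d b).fun_mul (h1 a m)),
    pd_sub c (h2 d a b) (.fun_sum fun m _ => (h3 m d a).fun_mul (h1 m b)),
    pd_sum c _ fun m _ => (h3 m d a).fun_mul (h1 m b),
    pd_sum c _ fun m _ => (h3 m d b).fun_mul (h1 a m)]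
  simp only [pd_mul c (h3 _ _ _) (h1 _ _)]
  rfl

theorem TTG_eq' (hb : IsRiemannianOn gb U) (hK : ∀ a b, ContDiffAt ℝ 2 (fun z => K z a b) y)
    (hy : y ∈ U) : TTG gb K y = bar3 (bar (K y) (jet K y) (christoffel gb y))
      (dbar (K y) (jet K y) (jet2 K y) (christoffel gb y) (dGam gb y)) (christoffel gb y) := by
  rw [TTG_eq, pd_TG hb hK hy, TG_eq]

theorem ln_TG (hb : IsRiemannianOn gb U) (hG : IsRiemannianOn G U) (hy : y ∈ U) (c : Fin n) :
    HD3 univ 0 (fun r => TG gb G (ln y c r)) fun d a b => pderiv c (fun z => TG gb G z d a b) y :=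
  fun _ _ _ => pd_line (((SmT.met hG).cov hb).dAt hG.isOpen hy _) c

theorem ln_chr (hb : IsRiemannianOn gb U) (hG : IsRiemannianOn G U) (hy : y ∈ U) (c : Fin n) :
    HD3 univ 0 (fun r => chr (iv G (ln y c r)) (TG gb G (ln y c r)))
      (dGam G y c - dGam gb y c) := fun k i j => by
  have hc : ContinuousAt (ln y c) 0 := by unfold ln; fun_prop
  have hev : ∀ᶠ r in 𝓝 (0 : ℝ), ln y c r ∈ U :=
    hc.eventually (by rw [ln_zero]; exact hG.isOpen.mem_nhds hy)
  refine ((ln_gam hG hy c k i j).fun_sub (ln_gam hb hy c k i j)).congr_of_eventuallyEq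
    (mem_nhdsWithin_of_mem_nhds (hev.mono fun r hr => ?_)) ?_
  · simp only [chr_TG hb hG hr, Pi.sub_apply]
  · simp only [chr_TG hb hG hev.self_of_nhds, Pi.sub_apply]

/-! ### the identities -/

/-- (A) `√G R = lag + ∂_c flux^c` -/
theorem eh_eq (hb : IsRiemannianOn gb U) (hG : IsRiemannianOn G U) (hy : y ∈ U) :
    sq G y * scalarCurv G y = lagF gb G y + ∑ c, pderiv c (fluxF gb G c) y := by
  have h := eh_jet (sq G y) (dGam G y) (dGam gb y) (iv_inv hG hy) (g_sy hG hy) (iv_sy hG hy)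
    (jet_sy (g_sy_ev hG hy)) (gam_sy hb hy)
  rw [← TG_eq gb G y, ← chr_eq G y, ← ricci_eq_ricC hG hy, ← ricci_eq_ricC hb hy] at h
  have h1 := d_iv hG hy
  have h2 := d_sq hG hy
  have h3 := d_TG hb hG hy
  have h5 := dA_flux h2 h1 h3
  have e : ∀ c, pderiv c (fluxF gb G c) y =
      fl (vG (sq G y) (iv G y) (jet G y c)) (chr (iv G y) (TG gb G y)) c +
        sq G y * fl (iv G y) (dGam G y c - dGam gb y c) c := fun c => by
    have h6 := hd_fl (hd_sH (H := fun r => iv G (ln y c r)) (ln_sq hG hy c) (ln_iv hG hy c))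
      (ln_chr hb hG hy c) c
    simp only [ln_zero, Pi.add_apply, fl_smul] at h6
    exact pd_eq (dA_ap h5 c) h6
  simp only [e]
  exact h

section Var

variable (hb : IsRiemannianOn gb U) (hG : IsRiemannianOn G U) (hy : y ∈ U)
  (hK : ∀ a b, DifferentiableAt ℝ (fun z => K z a b) y) (hKs : ∀ᶠ z in 𝓝 y, Sy2 (K z))
include hb hG hy hK

theorem pd_wL (c : Fin n) : pderiv c (fun z => wL (sq G z) (iv G z) (TG gb G z) (K z) c) y =
    -(fl (dvG (sq G y) (iv G y) (K y) (jet G y c) (jet K y c)) (chr (iv G y) (TG gb G y)) c +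
      fl (vG (sq G y) (iv G y) (K y)) (dGam G y c - dGam gb y c) c) := by
  have h1 := d_iv hG hy
  have h2 := d_sq hG hy
  have h3 := d_TG hb hG hy
  have h4 := d_mat hK
  have h5 := dA_wL h2 h1 h3 h4
  have h6 := (hd_fl (hd_vG (H := fun r => iv G (ln y c r)) (ln_sq hG hy c) (ln_iv hG hy c)
    (ln_mat hK c)) (ln_chr hb hG hy c) c).fun_neg
  simp only [ln_zero, Pi.add_apply] at h6
  exact pd_eq (dA_ap h5 c) h6

include hKs

/-- (B) first variation of the Einstein-Hilbert Lagrangian -/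
theorem dlag_eq : dlag (sq G y) (iv G y) (TG gb G y) (ricci gb y) (K y) (TG gb K y) =
    tr2 (vG (sq G y) (iv G y) (K y)) (ricci G y) +
      ∑ c, pderiv c (fun z => wL (sq G z) (iv G z) (TG gb G z) (K z) c) y := by
  have h := dlag_jet (sq G y) (dGam G y) (dGam gb y) (iv_inv hG hy) (g_sy hG hy) (iv_sy hG hy)
    hKs.self_of_nhds (jet_sy (g_sy_ev hG hy)) (jet_sy hKs) (gam_sy hb hy)
  rw [← TG_eq gb G y, ← TG_eq gb K y, ← chr_eq G y, ← ricci_eq_ricC hG hy,
    ← ricci_eq_ricC hb hy] at h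
  simp only [pd_wL hb hG hy hK, sum_neg_distrib]
  rw [h]; ring

/-- (B) first variation of the gauge-fixed Lagrangian -/
theorem dfgf_eq : dfgf (sq G y) (iv G y) (TG gb G y) (ricci gb y) (K y) (TG gb K y) =
    tr2 (vG (sq G y) (iv G y) (K y)) (a2 (redT gb G y)) +
      ∑ c, pderiv c (fun z => wF (sq G z) (iv G z) (TG gb G z) (K z) c) y := by
  have h := dgau_jet (sq G y) (iv_inv hG hy) (g_sy hG hy) (iv_sy hG hy)
    hKs.self_of_nhds (jet_sy (g_sy_ev hG hy)) (jet_sy hKs) (gam_sy hb hy)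
  rw [← TG_eq gb G y, ← TG_eq gb K y] at h
  have h1 := d_iv hG hy
  have h2 := d_sq hG hy
  have h3 := d_TG hb hG hy
  have h4 := d_mat hK
  have h5 := dA_wL h2 h1 h3 h4
  have h6 := dA_gv h1 h3
  have h7 := dA_vG h2 h1 h4
  have hB : ∀ j, DifferentiableAt ℝ (fun z => gv (iv G z) (TG gb G z) j) y := dA_ap h6
  have hX : ∀ c j, DifferentiableAt ℝ (fun z => vG (sq G z) (iv G z) (K z) c j) y := dA_ap2 h7
  have hX' : ∀ c j, pderiv c (fun z => vG (sq G z) (iv G z) (K z) c j) y =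
      dvG (sq G y) (iv G y) (K y) (jet G y c) (jet K y c) c j := fun c j => by
    refine pd_eq (hX c j) ?_
    have := hd_vG (H := fun r => iv G (ln y c r)) (ln_sq hG hy c) (ln_iv hG hy c)
      (ln_mat hK c) c j
    simp only [ln_zero] at this
    exact this
  have hW : ∀ c, pderiv c (fun z => wF (sq G z) (iv G z) (TG gb G z) (K z) c) y =
      pderiv c (fun z => wL (sq G z) (iv G z) (TG gb G z) (K z) c) y +
        ∑ j, (dvG (sq G y) (iv G y) (K y) (jet G y c) (jet K y c) c j * gv (iv G y) (TG gb G y) j +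
          vG (sq G y) (iv G y) (K y) c j * pderiv c (fun z => gv (iv G z) (TG gb G z) j) y) :=
    fun c => by
      simp only [wF]
      rw [pd_add c (dA_ap h5 c)
        (.fun_sum fun j _ => (hX c j).fun_mul (hB j)),
        pd_sum c _ fun j _ => (hX c j).fun_mul (hB j)]
      simp only [pd_mul c (hX _ _) (hB _), hX']
  have hS := vG_sy (sq G y) (iv_sy hG hy) hKs.self_of_nhds
  have hβ := gam_sy hb hy
  set X := vG (sq G y) (iv G y) (K y)
  set B := gv (iv G y) (TG gb G y) with hBd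
  set dB : M2 (Fin n) ℝ := fun c j => pderiv c (fun z => gv (iv G z) (TG gb G z) j) y
  have e1 : a2 (redT gb G y) = ricci G y - (1 / 2 : ℝ) • dB - (1 / 2 : ℝ) • (fun i j => dB j i) +
      (fun i j => ∑ m, christoffel gb y m i j * B m) + (1 / 2 : ℝ) • fun i j => B i * B j := by
    funext i j
    have : ∑ m, christoffel gb y m j i * B m = ∑ m, christoffel gb y m i j * B m :=
      sum_congr rfl fun m _ => by rw [hβ m j i]
    simp only [a2, redT, cov_one, gauT, Pi.add_apply, Pi.sub_apply, Pi.smul_apply, smul_eq_mul,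
      Matrix.cons_val_zero, Matrix.cons_val_one, ← hBd, this, dB]
    ring
  have e2 : tr2 X (fun i j => dB j i) = tr2 X dB := by
    simp only [tr2]; rw [sum_comm]
    exact sum_congr rfl fun a _ => sum_congr rfl fun b _ => by rw [hS b a]
  have e3 : tr2 X (fun i j => B i * B j) = ip1 X B B := rfl
  have e4 : ∑ c, ∑ j, X c j * dB c j = tr2 X dB := rfl
  simp only [dfgf, hW, sum_add_distrib]
  rw [dlag_eq hb hG hy hK hKs, h, e1, e4]
  simp only [tr2_add, tr2_sub, tr2_smul, e2, e3]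
  ring

end Var

/-- `Ric(G) = Ric(gb) + ricJ` -/
theorem ricci_eq (hb : IsRiemannianOn gb U) (hG : IsRiemannianOn G U) (hy : y ∈ U) :
    ricci G y = ricci gb y + ricJ (iv G y) (TG gb G y) (TTG gb G y) := by
  have hd : dGam G y = (fun c => dchr (iv G y) (TG gb G y) (jet G y c)
      fun d a b => pderiv c (fun z => TG gb G z d a b) y) + dGam gb y := by
    funext c k i j
    have h1 := hd_dchr (ln_iv hG hy c) (ln_TG hb hG hy c) k i j
    have h2 := ln_chr hb hG hy c k i j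
    have := (h1.hasDerivAt univ_mem).unique (h2.hasDerivAt univ_mem)
    simp only [ln_zero, Pi.sub_apply] at this
    simp only [Pi.add_apply, this]; ring
  have hc : christoffel G y = chr (iv G y) (TG gb G y) + christoffel gb y := by
    rw [chr_TG hb hG hy]; abel
  rw [ricci_eq_ricC hG hy, ricci_eq_ricC hb hy, hd, hc,
    ricC_add _ _ (gam_sy hb hy) (chr_sy _ (TG_sy gb (g_sy_ev hG hy))),
    covC_dchr (jet G y) _ _ (fun c d a b => pderiv c (fun z => TG gb G z d a b) y)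
      (iv_inv hG hy) (g_sy hG hy) (iv_sy hG hy), ← TG_eq gb G y, ← TTG_eq gb G y]
  rfl

theorem cov_gauT (hb : IsRiemannianOn gb U) (hG : IsRiemannianOn G U) (hy : y ∈ U) (c j : Fin n) :
    cov gb (gauT gb G) y ![c, j] = dgv (iv G y) (TG gb G y) (TG gb G y c) (TTG gb G y c) j := by
  have h1 := d_iv hG hy
  have h3 := d_TG hb hG hy
  have h := hd_dgv (ln_iv hG hy c) (ln_TG hb hG hy c) j
  simp only [ln_zero] at h
  have h' : pderiv c (fun z => gv (iv G z) (TG gb G z) j) y = _ :=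
    pd_eq (by have := dA_ap (dA_gv h1 h3) j; exact this) h
  have h2 := cov_dgv (TG gb G y) (christoffel gb y)
    (fun c d a b => pderiv c (fun z => TG gb G z d a b) y) (iv_inv hG hy) (g_sy hG hy)
    (iv_sy hG hy) (jet_sy (g_sy_ev hG hy)) c j
  rw [← TG_eq gb G y, ← TTG_eq gb G y] at h2
  rw [← h2, cov_one, ← h']
  rfl

/-- the reduced Ricci tensor as a polynomial in the covariant jets -/
theorem redT_eq_redJ (hb : IsRiemannianOn gb U) (hG : IsRiemannianOn G U) (hy : y ∈ U) :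
    a2 (redT gb G y) = ricci gb y + redJ (iv G y) (TG gb G y) (TTG gb G y) := by
  funext i j
  simp only [a2, redT, Matrix.cons_val_zero, Matrix.cons_val_one, cov_gauT hb hG hy,
    ricci_eq hb hG hy, Pi.add_apply, redJ, gauT]
  ring

/-- (C) scalar principal part -/
theorem redT_eq (hb : IsRiemannianOn gb U) (hG : IsRiemannianOn G U) (hy : y ∈ U) (i j : Fin n) :
    redT gb G y ![i, j] = -(1 / 2) * lapJ (iv G y) (TTG gb G y) i j +
      qd (iv G y) (TG gb G y) i j - cvJ (G y) (iv G y) (riemann gb y) i j := by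
  have hG2 : ∀ a b, ContDiffAt ℝ 2 (fun z => G z a b) y := fun a b =>
    c2At (hG.contDiffOn a b) hG.isOpen hy
  have hT := TTG_sy gb (g_sy_ev hG hy)
  have h0 := congrFun (congrFun (redT_eq_redJ hb hG hy) i) j
  rw [TTG_eq' hb hG2 hy] at hT
  have h := red_jet (iv_inv hG hy) (g_sy hG hy) (iv_sy hG hy) (jet2_comm hG2) (gam_sy hb hy)
    (dGam_sy hb hy) hT i j
  rw [← TTG_eq' hb hG2 hy, ← TG_eq gb G y, ← ricci_eq_ricC hb hy, ← riemann_eq gb y] at h
  rw [← h]; exact h0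

end Crest.Agent.N207.Lg

end
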